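import Vale.Agent.P112.H964.Cot4
import Vale.Agent.P112.T.DefsN

/-!
# Adjoint Cotlar inequality, part 5: back to the plane; `StN4a`
-/

open MeasureTheory Set
open scoped ContDiff

namespace Vale.Agent.P112.H964

open Vale.Agent.P112.T

noncomputable section

/-! ### The shear -/

/-- the shear `(x, y) ↦ (x, y + s x)`. -/
def shE (s : ℝ) : (ℝ × ℝ) ≃ᵐ (ℝ × ℝ) where
  toFun z := (z.1, z.2 + s * z.1)
  invFun z := (z.1, z.2 - s * z.1)
  left_inv z := by simp
  right_inv z := by simp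
  measurable_toFun := by
    simp only [Equiv.coe_fn_mk]
    fun_prop
  measurable_invFun := by
    simp only [Equiv.coe_fn_symm_mk]
    fun_prop

theorem shE_apply (s : ℝ) (z : ℝ × ℝ) : shE s z = (z.1, z.2 + s * z.1) := rfl

theorem shE_mp (s : ℝ) : MeasurePreserving (shE s) volume volume := by
  have h := MeasurePreserving.skew_product (μa := (volume : Measure ℝ))
    (μc := (volume : Measure ℝ)) (μb := volume) (μd := volume) (MeasurePreserving.id volume)
    (g := fun x y => y + s * x) (by fun_prop)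
    (ae_of_all _ fun x => map_add_right_eq_self volume (s * x))
  exact h

theorem sh_integral (s : ℝ) (f : ℝ × ℝ → ℝ) : ∫ z, f (shE s z) = ∫ z, f z :=
  (shE_mp s).integral_comp (shE s).measurableEmbedding f

theorem sh_setIntegral (s : ℝ) (f : ℝ × ℝ → ℝ) (B : Set (ℝ × ℝ)) :
    ∫ z in shE s ⁻¹' B, f (shE s z) = ∫ z in B, f z :=
  (shE_mp s).setIntegral_preimage_emb (shE s).measurableEmbedding f B

variable {M : ℕ}

theorem prof_of_ker (κ : Ker M) : Prof κ.K κ.psi where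
  cK := κ.smoothK
  sK t ht := κ.suppK t ht.le
  oK := κ.oddK
  cψ := by
    unfold Ker.psi
    rw [iteratedDeriv_eq_iterate]
    exact ContDiff.iterate_deriv M κ.smoothΦ
  sψ t ht := by
    unfold Ker.psi
    exact iter_zero (b := 1) (fun t ht => κ.suppΦ t ht.le) M t ht

theorem pb_of_bd {κ : Ker M} {N C0 : ℝ} (h : κ.Bd N C0) : PB κ.K κ.psi N C0 (M + 2) where
  one_le := h.one_le
  C0_nonneg := (abs_nonneg _).trans (h.K_bd 0 (by omega) 0)
  bK k hk t := h.K_bd k (by omega) t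
  bψ m hm t := by
    have h1 : iteratedDeriv m κ.psi = iteratedDeriv (m + M) κ.Φ := by
      unfold Ker.psi
      rw [iteratedDeriv_eq_iterate, iteratedDeriv_eq_iterate, iteratedDeriv_eq_iterate,
        Function.iterate_add_apply]
    rw [h1]
    refine (h.Φ_bd (m + M) (by omega) t).trans (le_of_eq ?_)
    have hN : 0 < N := lt_of_lt_of_le one_pos h.one_le
    rw [pow_add]
    field_simp

theorem nice_int {g : ℝ × ℝ → ℝ} (hg : Nice g) : Integrable g := by
  obtain ⟨C, hC⟩ := hg.bdd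
  obtain ⟨r, hr⟩ := hg.supp
  have hK : IsCompact (Icc (-r) r ×ˢ Icc (-r) r : Set (ℝ × ℝ)) := isCompact_Icc.prod isCompact_Icc
  have h1 : IntegrableOn g (Icc (-r) r ×ˢ Icc (-r) r) := by
    apply Measure.integrableOn_of_bounded (M := C) hK.measure_lt_top.ne
    · exact hg.meas.aestronglyMeasurable
    · exact Filter.Eventually.of_forall fun z => by simpa using hC z
  refine (integrableOn_iff_integrable_of_support_subset ?_).1 h1
  intro z hz
  by_contra hc
  apply hz
  apply hr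
  by_contra hn
  push Not at hn
  exact hc ⟨mem_Icc.2 (abs_le.1 hn.1.le), mem_Icc.2 (abs_le.1 hn.2.le)⟩

/-- The slope field in the frame of the tree. -/
def vS (s : ℝ) (u : ℝ × ℝ → ℝ) (z : ℝ × ℝ) : ℝ := u (shE s z) - s

/-- The tree data in its own frame. -/
theorem tr_of {u g : ℝ × ℝ → ℝ} {E : ℕ → Set (ℝ × ℝ)} {s A N : ℝ} {n : ℕ} (hA : 0 ≤ A)
    (hu : Measurable u) (hg : Integrable g) (hE : ∀ j, MeasurableSet (E j))
    (hs : ∀ j < n, ∀ z ∈ E j, |u z - s| ≤ A * 2 ^ j / N) :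
    Tr (vS s u) (fun z => g (shE s z)) (fun j => shE s ⁻¹' E j) A N n where
  mv := (hu.comp (shE s).measurable).sub_const s
  mE j := (shE s).measurable (hE j)
  ig := (shE_mp s).integrable_comp_of_integrable hg
  A0 := hA
  sl i hi z hz := by
    have := hs i hi _ hz
    rw [mul_div_right_comm] at this
    exact this

theorem S_frame (κ : Ker M) (u h : ℝ × ℝ → ℝ) (s : ℝ) (i : ℕ) (x Y : ℝ) :
    κ.S u i h (x, Y + s * x) =
      S κ.K κ.psi 0 i (vS s u) (fun z => h (shE s z)) x Y := by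
  rw [S_zero]
  unfold Ker.S
  rw [← sh_integral s]
  congr 1
  funext z
  unfold Ker.k vS
  rw [shE_apply]
  have : z.2 + s * z.1 - (Y + s * x) - (z.1 - x) * u (z.1, z.2 + s * z.1) =
    z.2 - Y - (z.1 - x) * (u (z.1, z.2 + s * z.1) - s) := by ring
  simp only
  rw [this]

theorem FS_frame (κ : Ker M) (u g : ℝ × ℝ → ℝ) (E : ℕ → Set (ℝ × ℝ)) (s : ℝ) (m : ℕ) (x Y : ℝ) :
    κ.FS u g E m (x, Y + s * x) =
      FD κ.K κ.psi 0 (vS s u) (fun z => g (shE s z)) (fun j => shE s ⁻¹' E j) m x Y := by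
  unfold Ker.FS FD
  refine Finset.sum_congr rfl fun i _ => ?_
  rw [S_frame]
  rfl

theorem Bx_frame_le {h : ℝ × ℝ → ℝ} (hh : Integrable h) (s : ℝ) {A : ℝ} (hA : 0 ≤ A) (i : ℕ)
    (ζ : ℝ × ℝ) :
    Bx A i (fun z => h (shE s z)) ζ.1 (ζ.2 - s * ζ.1) ≤ Av s (2 + A) i (fun z => |h z|) ζ := by
  unfold Bx Av
  refine mul_le_mul_of_nonneg_left ?_ (by positivity)
  have h1 : {z : ℝ × ℝ | |z.1 - ζ.1| ≤ 2 * (2 ^ i)⁻¹ ∧ |z.2 - (ζ.2 - s * ζ.1)| ≤ 1 + A} =
      shE s ⁻¹' {z : ℝ × ℝ | |z.1 - ζ.1| ≤ 2 * (2 ^ i)⁻¹ ∧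
        |(z.2 - s * z.1) - (ζ.2 - s * ζ.1)| ≤ 1 + A} := by
    ext z
    simp only [mem_preimage, shE_apply, mem_ofPred_eq, add_sub_cancel_right]
  rw [h1, sh_setIntegral s (fun z => |h z|)]
  refine setIntegral_mono_set hh.abs.integrableOn (ae_of_all _ fun _ => abs_nonneg _) ?_
  refine Filter.Eventually.of_forall ?_
  intro z hz
  obtain ⟨hz1, hz2⟩ := hz
  refine ⟨hz1.trans ?_, hz2.trans (by linarith)⟩
  rw [div_eq_mul_inv]
  gcongr
  linarith

/-- **T4(a)**: the adjoint Cotlar inequality, version with frequency `N`. -/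
theorem stN4a (M : ℕ) (A C0 : ℝ) (hA : 1 ≤ A) : StN4a M A C0 := by
  have hA0 : 0 ≤ A := by linarith
  refine ⟨1 + C0 ^ 2 * (1 + 2 * A) + 2 * C0 ^ 2 * (1 + A), 2 + A, by positivity, by linarith, ?_⟩
  intro N κ hκ u hu n E hE s hs g hg j hj ζ
  have h := prof_of_ker κ
  have b := pb_of_bd hκ
  have t := tr_of hA0 hu.meas (nice_int hg) hE hs
  have hζ : ∀ m, κ.FS u g E m ζ = FD κ.K κ.psi 0 (vS s u) (fun z => g (shE s z))
      (fun j => shE s ⁻¹' E j) m ζ.1 (ζ.2 - s * ζ.1) := by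
    intro m
    rw [← FS_frame]
    congr 1
    ext
    · rfl
    · simp
  have main := cotlar h b (by omega) t hj ζ.1 (ζ.2 - s * ζ.1)
  rw [← hζ] at main
  have hN : 0 < N := b.N_pos
  -- line average
  have l1 : 2 ^ j * (∫ x' in {x' : ℝ | |x' - ζ.1| ≤ (2 ^ j)⁻¹}, |FD κ.K κ.psi 0 (vS s u)
      (fun z => g (shE s z)) (fun j => shE s ⁻¹' E j) n x' (ζ.2 - s * ζ.1)|) ≤
      AvL s (2 + A) j (fun z => |κ.FS u g E n z|) ζ := by
    unfold AvL
    refine mul_le_mul_of_nonneg_left ?_ (by positivity)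
    have e1 : ∀ x', |κ.FS u g E n (x', ζ.2 + s * (x' - ζ.1))| = |FD κ.K κ.psi 0 (vS s u)
      (fun z => g (shE s z)) (fun j => shE s ⁻¹' E j) n x' (ζ.2 - s * ζ.1)| := by
      intro x'
      rw [← FS_frame]
      congr 3
      ring
    simp only [e1]
    refine setIntegral_mono_set ?_ (ae_of_all _ fun _ => abs_nonneg _) ?_
    · rw [ball1_eq]
      exact (continuous_FD h b t (a := 0) (by omega) le_rfl
        (ζ.2 - s * ζ.1)).abs.continuousOn.integrableOn_Icc
    · refine Filter.Eventually.of_forall ?_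
      intro x' hx'
      refine le_trans (show |x' - ζ.1| ≤ (2 ^ j)⁻¹ from hx') ?_
      rw [inv_eq_one_div]
      gcongr
      linarith
  -- box averages
  have l2 : Bx A j ({z | ∃ i < n, z ∈ shE s ⁻¹' E i}.indicator fun z => g (shE s z)) ζ.1
      (ζ.2 - s * ζ.1) ≤ Av s (2 + A) j ((Un E n).indicator fun z => |g z|) ζ := by
    have hU : MeasurableSet (Un E n) := by
      have : Un E n = ⋃ j ∈ Finset.range n, E j := by
        ext z; simp [Un]
      rw [this]
      exact Finset.measurableSet_biUnion _ fun j _ => hE j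
    have := Bx_frame_le ((nice_int hg).indicator hU) s hA0 j ζ
    have e2 : (fun z => |(Un E n).indicator g z|) = (Un E n).indicator fun z => |g z| := by
      funext z
      by_cases hz : z ∈ Un E n
      · rw [indicator_of_mem hz, indicator_of_mem hz]
      · rw [indicator_of_notMem hz, indicator_of_notMem hz, abs_zero]
    rw [e2] at this
    exact this
  have l3 : ∀ i, Bx A i ((shE s ⁻¹' E i).indicator fun z => g (shE s z)) ζ.1
      (ζ.2 - s * ζ.1) ≤ Av s (2 + A) i ((E i).indicator fun z => |g z|) ζ := by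
    intro i
    have := Bx_frame_le ((nice_int hg).indicator (hE i)) s hA0 i ζ
    have e2 : (fun z => |(E i).indicator g z|) = (E i).indicator fun z => |g z| := by
      funext z
      by_cases hz : z ∈ E i
      · rw [indicator_of_mem hz, indicator_of_mem hz]
      · rw [indicator_of_notMem hz, indicator_of_notMem hz, abs_zero]
    rw [e2] at this
    exact this
  have l4 : ∑ i ∈ Finset.range (j + 1), 2 ^ i / 2 ^ j *
      Bx A i ((shE s ⁻¹' E i).indicator fun z => g (shE s z)) ζ.1 (ζ.2 - s * ζ.1) ≤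
      ∑ i ∈ Finset.range (j + 1), 2 ^ i / 2 ^ j *
        Av s (2 + A) i ((E i).indicator fun z => |g z|) ζ :=
    Finset.sum_le_sum fun i _ => mul_le_mul_of_nonneg_left (l3 i) (by positivity)
  have n1 : 0 ≤ AvL s (2 + A) j (fun z => |κ.FS u g E n z|) ζ := by
    refine le_trans ?_ l1
    exact mul_nonneg (by positivity) (integral_nonneg fun _ => abs_nonneg _)
  have n2 : 0 ≤ Av s (2 + A) j ((Un E n).indicator fun z => |g z|) ζ :=
    (Bx_nonneg _ _ _ _ _).trans l2
  have n3 : 0 ≤ ∑ i ∈ Finset.range (j + 1), 2 ^ i / 2 ^ j *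
        Av s (2 + A) i ((E i).indicator fun z => |g z|) ζ :=
    (Finset.sum_nonneg fun i _ => mul_nonneg (by positivity) (Bx_nonneg _ _ _ _ _)).trans l4
  refine main.trans ?_
  set a1 := AvL s (2 + A) j (fun z => |κ.FS u g E n z|) ζ
  set a2 := Av s (2 + A) j ((Un E n).indicator fun z => |g z|) ζ
  set a3 := ∑ i ∈ Finset.range (j + 1), 2 ^ i / 2 ^ j *
        Av s (2 + A) i ((E i).indicator fun z => |g z|) ζ
  have c1 : 0 ≤ C0 ^ 2 * (1 + 2 * A) := by positivity
  have c2 : 0 ≤ 2 * C0 ^ 2 * (1 + A) := by positivity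
  have m2 := mul_le_mul_of_nonneg_left l2 c1
  have m3 := mul_le_mul_of_nonneg_left l4 c2
  set p := C0 ^ 2 * (1 + 2 * A)
  set q := 2 * C0 ^ 2 * (1 + A)
  calc _ ≤ a1 + p * a2 + q * a3 := add_le_add (add_le_add l1 m2) m3
    _ ≤ (1 + p + q) * (a1 + a2 + a3) := by
      nlinarith [mul_nonneg c1 n1, mul_nonneg c1 n3, mul_nonneg c2 n1, mul_nonneg c2 n2]

end

end Vale.Agent.P112.H964
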