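import Mathlib

/-!
# Adjoint Cotlar inequality for the tree functions of P112 (block T4 (i) (a))

Coordinates `(x, Y)` of the slope of the tree; `v = u - s`.  The kernel of scale `j` is
`2 ^ j * K (2 ^ j * (z.1 - x)) * ψ (z.2 - y - (z.1 - x) * v z)`.
-/

open MeasureTheory Set
open scoped ContDiff

namespace Vale.Agent.P112.H964

noncomputable section

/-- The two profile functions. -/
structure Prof (K ψ : ℝ → ℝ) : Prop where
  cK : ContDiff ℝ ∞ K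
  sK : ∀ t, 1 / 8 < |t| → K t = 0
  oK : ∀ t, K (-t) = -K t
  cψ : ContDiff ℝ ∞ ψ
  sψ : ∀ t, 1 < |t| → ψ t = 0

variable {K ψ : ℝ → ℝ}

/-- Bounds of the profiles, with the frequency `N` of `ψ`. -/
structure PB (K ψ : ℝ → ℝ) (N C0 : ℝ) (m0 : ℕ) : Prop where
  one_le : 1 ≤ N
  C0_nonneg : 0 ≤ C0
  bK : ∀ k ≤ m0, ∀ t, |iteratedDeriv k K t| ≤ C0
  bψ : ∀ m ≤ m0, ∀ t, |iteratedDeriv m ψ t| ≤ C0 * N ^ m

/-- the building blocks of the derivatives in `σ` of `K σ * ψ (c - σ α)`. -/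
def T (K ψ : ℝ → ℝ) (k m : ℕ) (σ c α : ℝ) : ℝ :=
  iteratedDeriv k K σ * ((-α) ^ m * iteratedDeriv m ψ (c - σ * α))

/-- `a`-th derivative in `σ` of `T k m`. -/
def Dk (K ψ : ℝ → ℝ) : ℕ → ℕ → ℕ → ℝ → ℝ → ℝ → ℝ
  | 0, k, m, σ, c, α => T K ψ k m σ c α
  | (a + 1), k, m, σ, c, α => Dk K ψ a (k + 1) m σ c α + Dk K ψ a k (m + 1) σ c α

theorem hasDerivAt_iter {f : ℝ → ℝ} (hf : ContDiff ℝ ∞ f) (k : ℕ) (t : ℝ) :
    HasDerivAt (iteratedDeriv k f) (iteratedDeriv (k + 1) f t) t := by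
  have h1 : Differentiable ℝ (iteratedDeriv k f) :=
    hf.differentiable_iteratedDeriv k (by exact_mod_cast WithTop.coe_lt_top _)
  have h2 := (h1 t).hasDerivAt
  rwa [← iteratedDeriv_succ] at h2

theorem continuous_iter {f : ℝ → ℝ} (hf : ContDiff ℝ ∞ f) (k : ℕ) :
    Continuous (iteratedDeriv k f) :=
  hf.continuous_iteratedDeriv k (by exact_mod_cast le_top)

theorem hasDerivAt_T (h : Prof K ψ) (k m : ℕ) (σ c α : ℝ) :
    HasDerivAt (fun σ => T K ψ k m σ c α)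
      (T K ψ (k + 1) m σ c α + T K ψ k (m + 1) σ c α) σ := by
  have h1 := hasDerivAt_iter h.cK k σ
  have h2 : HasDerivAt (fun σ : ℝ => c - σ * α) (-α) σ := by
    simpa using ((hasDerivAt_id σ).mul_const α).const_sub c
  have h3 := (hasDerivAt_iter h.cψ m (c - σ * α)).comp σ h2
  have h4 := h1.mul (h3.const_mul ((-α) ^ m))
  refine h4.congr_deriv ?_
  simp only [T, Function.comp]
  ring

theorem hasDerivAt_Dk (h : Prof K ψ) (a : ℕ) : ∀ (k m : ℕ) (σ c α : ℝ),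
    HasDerivAt (fun σ => Dk K ψ a k m σ c α) (Dk K ψ (a + 1) k m σ c α) σ := by
  induction a with
  | zero => intro k m σ c α; exact hasDerivAt_T h k m σ c α
  | succ a ih =>
    intro k m σ c α
    exact (ih (k + 1) m σ c α).add (ih k (m + 1) σ c α)

theorem continuous_Dk (h : Prof K ψ) (a : ℕ) : ∀ (k m : ℕ),
    Continuous (fun p : ℝ × ℝ × ℝ => Dk K ψ a k m p.1 p.2.1 p.2.2) := by
  induction a with
  | zero =>
    intro k m
    simp only [Dk, T]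
    have h1 := continuous_iter h.cK k
    have h2 := continuous_iter h.cψ m
    fun_prop
  | succ a ih => intro k m; exact (ih (k + 1) m).add (ih k (m + 1))

theorem iter_zero {f : ℝ → ℝ} {b : ℝ} (hs : ∀ t, b < |t| → f t = 0) (k : ℕ) :
    ∀ t, b < |t| → iteratedDeriv k f t = 0 := by
  induction k with
  | zero => simpa using hs
  | succ k ih =>
    intro t ht
    rw [iteratedDeriv_succ]
    have : iteratedDeriv k f =ᶠ[nhds t] fun _ => 0 := by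
      have ho : IsOpen {t : ℝ | b < |t|} := isOpen_lt continuous_const continuous_abs
      filter_upwards [ho.mem_nhds ht] with s hs' using ih s hs'
    rw [this.deriv_eq]
    simp

theorem Dk_zero (h : Prof K ψ) (a : ℕ) : ∀ (k m : ℕ) (σ c α : ℝ),
    (1 / 8 < |σ| ∨ 1 < |c - σ * α|) → Dk K ψ a k m σ c α = 0 := by
  induction a with
  | zero =>
    intro k m σ c α hh
    simp only [Dk, T]
    rcases hh with hh | hh
    · rw [iter_zero h.sK k σ hh, zero_mul]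
    · rw [iter_zero h.sψ m _ hh, mul_zero, mul_zero]
  | succ a ih =>
    intro k m σ c α hh
    simp only [Dk]
    rw [ih _ _ _ _ _ hh, ih _ _ _ _ _ hh, add_zero]

theorem T_bdd {N C0 A : ℝ} {m0 : ℕ} (b : PB K ψ N C0 m0) (hA : 0 ≤ A) {k m : ℕ}
    (hk : k ≤ m0) (hm : m ≤ m0) (σ c α : ℝ) (hα : |α| ≤ A / N) :
    |T K ψ k m σ c α| ≤ C0 ^ 2 * (1 + A) ^ m := by
  have hN : 0 < N := lt_of_lt_of_le one_pos b.one_le
  unfold T
  rw [abs_mul, abs_mul, abs_pow, abs_neg]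
  have h1 : |α| ^ m * |iteratedDeriv m ψ (c - σ * α)| ≤ C0 * (1 + A) ^ m := by
    calc |α| ^ m * |iteratedDeriv m ψ (c - σ * α)| ≤ (A / N) ^ m * (C0 * N ^ m) := by
          have := b.bψ m hm (c - σ * α)
          gcongr
      _ = C0 * A ^ m := by
          rw [div_pow]
          field_simp
      _ ≤ C0 * (1 + A) ^ m := by
          have := b.C0_nonneg
          gcongr
          linarith
  calc |iteratedDeriv k K σ| * (|α| ^ m * |iteratedDeriv m ψ (c - σ * α)|)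
      ≤ C0 * (C0 * (1 + A) ^ m) := by
        have := b.bK k hk σ
        have := b.C0_nonneg
        gcongr
    _ = _ := by ring

theorem Dk_bdd {N C0 A : ℝ} {m0 : ℕ} (b : PB K ψ N C0 m0) (hA : 0 ≤ A) (a : ℕ) :
    ∀ (k m : ℕ), a + k ≤ m0 → a + m ≤ m0 → ∀ σ c α : ℝ, |α| ≤ A / N →
      |Dk K ψ a k m σ c α| ≤ 2 ^ a * C0 ^ 2 * (1 + A) ^ (a + m) := by
  induction a with
  | zero =>
    intro k m hk hm σ c α hα
    simp only [Dk, pow_zero, one_mul, zero_add]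
    exact T_bdd b hA (by omega) (by omega) σ c α hα
  | succ a ih =>
    intro k m hk hm σ c α hα
    simp only [Dk]
    have h1 := ih (k + 1) m (by omega) (by omega) σ c α hα
    have h2 := ih k (m + 1) (by omega) (by omega) σ c α hα
    have h3 : (1 + A) ^ (a + m) ≤ (1 + A) ^ (a + 1 + m) :=
      pow_le_pow_right₀ (by linarith) (by omega)
    have h4 : a + (m + 1) = a + 1 + m := by ring
    rw [h4] at h2
    have h5 : 2 ^ a * C0 ^ 2 * (1 + A) ^ (a + m) ≤ 2 ^ a * C0 ^ 2 * (1 + A) ^ (a + 1 + m) :=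
      mul_le_mul_of_nonneg_left h3 (by positivity)
    refine (abs_add_le _ _).trans ?_
    rw [pow_succ (2 : ℝ) a]
    linarith

/-! ### The operators -/

/-- `a`-th `x`-derivative of
`(x, y) ↦ ∫ 2 ^ j * K (2 ^ j * (z.1 - x)) * ψ (z.2 - y - (z.1 - x) * v z) * h z`. -/
def S (K ψ : ℝ → ℝ) (a j : ℕ) (v h : ℝ × ℝ → ℝ) (x y : ℝ) : ℝ :=
  ∫ z : ℝ × ℝ, ((-1) ^ a * (2 ^ j) ^ (a + 1) *
    Dk K ψ a 0 0 (2 ^ j * (z.1 - x)) (z.2 - y) ((2 ^ j)⁻¹ * v z)) * h z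

/-- box averages (in the frame of the tree). -/
def Bx (A : ℝ) (j : ℕ) (h : ℝ × ℝ → ℝ) (x y : ℝ) : ℝ :=
  2 ^ j * ∫ z in {z : ℝ × ℝ | |z.1 - x| ≤ 2 * (2 ^ j)⁻¹ ∧ |z.2 - y| ≤ 1 + A}, |h z|

theorem measurableSet_box (r b x y : ℝ) :
    MeasurableSet {z : ℝ × ℝ | |z.1 - x| ≤ r ∧ |z.2 - y| ≤ b} := by
  exact (measurableSet_le (continuous_abs.measurable.comp (measurable_fst.sub_const x))
    measurable_const).inter (measurableSet_le
      (continuous_abs.measurable.comp (measurable_snd.sub_const y)) measurable_const)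

theorem Bx_nonneg (A : ℝ) (j : ℕ) (h : ℝ × ℝ → ℝ) (x y : ℝ) : 0 ≤ Bx A j h x y :=
  mul_nonneg (by positivity) (integral_nonneg fun _ => abs_nonneg _)

theorem S_zero (j : ℕ) (v g : ℝ × ℝ → ℝ) (x y : ℝ) :
    S K ψ 0 j v g x y = ∫ z : ℝ × ℝ,
      (2 ^ j * K (2 ^ j * (z.1 - x))) * ψ (z.2 - y - (z.1 - x) * v z) * g z := by
  unfold S
  congr 1
  funext z
  have h2 : (2 : ℝ) ^ j ≠ 0 := by positivity
  have : 2 ^ j * (z.1 - x) * ((2 ^ j)⁻¹ * v z) = (z.1 - x) * v z := by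
    field_simp
  simp only [Dk, T, iteratedDeriv_zero, pow_zero, one_mul, this, zero_add, pow_one]
  ring

theorem aesm_ker (h : Prof K ψ) (a j : ℕ) {v g : ℝ × ℝ → ℝ} (hv : Measurable v)
    (hg : Integrable g) (x y : ℝ) :
    AEStronglyMeasurable (fun z : ℝ × ℝ => ((-1) ^ a * (2 ^ j) ^ (a + 1) *
      Dk K ψ a 0 0 (2 ^ j * (z.1 - x)) (z.2 - y) ((2 ^ j)⁻¹ * v z)) * g z) volume := by
  refine AEStronglyMeasurable.mul ?_ hg.1
  refine Measurable.aestronglyMeasurable ?_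
  refine measurable_const.mul ?_
  exact (continuous_Dk h a 0 0).measurable.comp
    (f := fun z : ℝ × ℝ => (2 ^ j * (z.1 - x), z.2 - y, (2 ^ j)⁻¹ * v z)) (by fun_prop)

theorem ker_bdd (h : Prof K ψ) {N C0 A : ℝ} {m0 : ℕ} (b : PB K ψ N C0 m0) (hA : 0 ≤ A) {a : ℕ}
    (ha : a ≤ m0) (j : ℕ) (v g : ℝ × ℝ → ℝ) (hvg : ∀ z, g z ≠ 0 → |v z| ≤ A / N * 2 ^ j)
    (x y : ℝ) (z : ℝ × ℝ) :
      |((-1) ^ a * (2 ^ j) ^ (a + 1) *
        Dk K ψ a 0 0 (2 ^ j * (z.1 - x)) (z.2 - y) ((2 ^ j)⁻¹ * v z)) * g z| ≤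
      2 ^ a * C0 ^ 2 * (1 + A) ^ a * (2 ^ j) ^ (a + 1) *
        ({z : ℝ × ℝ | |z.1 - x| ≤ (2 ^ j)⁻¹ ∧ |z.2 - y| ≤ 1 + A}.indicator
          (fun z => |g z|) z) := by
  have hN : 0 < N := lt_of_lt_of_le one_pos b.one_le
  have hAN : A / N ≤ A := div_le_self hA b.one_le
  have h2 : (0 : ℝ) < 2 ^ j := by positivity
  by_cases hz : g z = 0
  · rw [hz, mul_zero, abs_zero]
    refine mul_nonneg (by positivity) (indicator_nonneg (fun _ _ => abs_nonneg _) _)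
  have hα : |(2 ^ j)⁻¹ * v z| ≤ A / N := by
    rw [abs_mul, abs_of_pos (by positivity)]
    have := hvg z hz
    rw [inv_mul_le_iff₀ h2]
    linarith
  by_cases hb : |z.1 - x| ≤ (2 ^ j)⁻¹ ∧ |z.2 - y| ≤ 1 + A
  · rw [indicator_of_mem (by exact hb)]
    rw [abs_mul, abs_mul, abs_mul, abs_pow, abs_neg, abs_one, one_pow, one_mul,
      abs_of_pos (by positivity : (0 : ℝ) < (2 ^ j) ^ (a + 1))]
    have h5 := Dk_bdd b hA a 0 0 (by omega) (by omega) (2 ^ j * (z.1 - x)) (z.2 - y) _ hα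
    have h4 := abs_nonneg (g z)
    calc (2 ^ j) ^ (a + 1) * |Dk K ψ a 0 0 (2 ^ j * (z.1 - x)) (z.2 - y) ((2 ^ j)⁻¹ * v z)|
          * |g z| ≤ (2 ^ j) ^ (a + 1) * (2 ^ a * C0 ^ 2 * (1 + A) ^ (a + 0)) * |g z| := by gcongr
      _ = _ := by rw [add_zero]; ring
  · rw [indicator_of_notMem (by exact hb), mul_zero]
    have : Dk K ψ a 0 0 (2 ^ j * (z.1 - x)) (z.2 - y) ((2 ^ j)⁻¹ * v z) = 0 := by
      apply Dk_zero h
      by_contra hcon
      push Not at hcon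
      obtain ⟨h5, h6⟩ := hcon
      apply hb
      constructor
      · rw [abs_mul, abs_of_pos h2] at h5
        rw [← one_div, le_div_iff₀ h2]
        linarith
      · have h7 : |2 ^ j * (z.1 - x) * ((2 ^ j)⁻¹ * v z)| ≤ A := by
          rw [abs_mul]
          nlinarith [abs_nonneg (2 ^ j * (z.1 - x)), abs_nonneg ((2 ^ j)⁻¹ * v z)]
        have := abs_le.1 h6
        have h8 := abs_le.1 h7
        rw [abs_le]
        constructor <;> linarith [this.1, this.2, h8.1, h8.2]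
    rw [this]
    simp

theorem integrable_ker (h : Prof K ψ) {N C0 A : ℝ} {m0 : ℕ} (b : PB K ψ N C0 m0) (hA : 0 ≤ A)
    {a : ℕ} (ha : a ≤ m0) (j : ℕ) {v g : ℝ × ℝ → ℝ} (hv : Measurable v)
    (hg : Integrable g) (hvg : ∀ z, g z ≠ 0 → |v z| ≤ A / N * 2 ^ j) (x y : ℝ) :
    Integrable (fun z : ℝ × ℝ => ((-1) ^ a * (2 ^ j) ^ (a + 1) *
      Dk K ψ a 0 0 (2 ^ j * (z.1 - x)) (z.2 - y) ((2 ^ j)⁻¹ * v z)) * g z) volume := by
  refine Integrable.mono' (g := fun z => 2 ^ a * C0 ^ 2 * (1 + A) ^ a * (2 ^ j) ^ (a + 1) * |g z|)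
    (hg.abs.const_mul _) (aesm_ker h a j hv hg x y) (ae_of_all _ fun z => ?_)
  rw [Real.norm_eq_abs]
  refine (ker_bdd h b hA ha j v g hvg x y z).trans ?_
  refine mul_le_mul_of_nonneg_left ?_ (by positivity)
  exact indicator_le_self' (fun _ _ => abs_nonneg _) _

theorem hasDerivAt_S (h : Prof K ψ) {N C0 A : ℝ} {m0 : ℕ} (b : PB K ψ N C0 m0) (hA : 0 ≤ A)
    {a : ℕ} (ha : a + 1 ≤ m0) (j : ℕ) {v g : ℝ × ℝ → ℝ} (hv : Measurable v)
    (hg : Integrable g) (hvg : ∀ z, g z ≠ 0 → |v z| ≤ A / N * 2 ^ j) (x y : ℝ) :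
    HasDerivAt (fun x => S K ψ a j v g x y) (S K ψ (a + 1) j v g x y) x := by
  refine (hasDerivAt_integral_of_dominated_loc_of_deriv_le (s := univ)
    (bound := fun z => 2 ^ (a + 1) * C0 ^ 2 * (1 + A) ^ (a + 1) * (2 ^ j) ^ (a + 1 + 1) * |g z|)
    (F' := fun x z => ((-1) ^ (a + 1) * (2 ^ j) ^ (a + 1 + 1) *
      Dk K ψ (a + 1) 0 0 (2 ^ j * (z.1 - x)) (z.2 - y) ((2 ^ j)⁻¹ * v z)) * g z)
    Filter.univ_mem (Filter.Eventually.of_forall fun x => aesm_ker h a j hv hg x y)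
    (integrable_ker h b hA (by omega) j hv hg hvg x y) (aesm_ker h (a + 1) j hv hg x y)
    (ae_of_all _ fun z x _ => ?_) (hg.abs.const_mul _) (ae_of_all _ fun z x _ => ?_)).2
  · rw [Real.norm_eq_abs]
    refine (ker_bdd h b hA ha j v g hvg x y z).trans ?_
    refine mul_le_mul_of_nonneg_left ?_ (by positivity)
    exact indicator_le_self' (fun _ _ => abs_nonneg _) _
  · have h1 : HasDerivAt (fun x : ℝ => 2 ^ j * (z.1 - x)) (-2 ^ j) x := by
      simpa using ((hasDerivAt_id x).const_sub z.1).const_mul ((2 : ℝ) ^ j)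
    have h2 := (hasDerivAt_Dk h a 0 0 (2 ^ j * (z.1 - x)) (z.2 - y)
      ((2 ^ j)⁻¹ * v z)).comp x h1
    have h3 := (h2.const_mul ((-1) ^ a * (2 ^ j) ^ (a + 1))).mul_const (g z)
    refine h3.congr_deriv ?_
    ring

theorem abs_S_le (h : Prof K ψ) {N C0 A : ℝ} {m0 : ℕ} (b : PB K ψ N C0 m0) (hA : 0 ≤ A)
    {a : ℕ} (ha : a ≤ m0) (j : ℕ) (v g : ℝ × ℝ → ℝ) (hg : Integrable g)
    (hvg : ∀ z, g z ≠ 0 → |v z| ≤ A / N * 2 ^ j) (x y x' : ℝ) (hx : |x' - x| ≤ (2 ^ j)⁻¹) :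
        |S K ψ a j v g x' y| ≤ 2 ^ a * C0 ^ 2 * (1 + A) ^ a * (2 ^ j) ^ a * Bx A j g x y := by
  have h2 : (0 : ℝ) < 2 ^ j := by positivity
  unfold S Bx
  calc |∫ z : ℝ × ℝ, ((-1) ^ a * (2 ^ j) ^ (a + 1) *
      Dk K ψ a 0 0 (2 ^ j * (z.1 - x')) (z.2 - y) ((2 ^ j)⁻¹ * v z)) * g z|
      ≤ ∫ z : ℝ × ℝ, 2 ^ a * C0 ^ 2 * (1 + A) ^ a * (2 ^ j) ^ (a + 1) *
        ({z : ℝ × ℝ | |z.1 - x| ≤ 2 * (2 ^ j)⁻¹ ∧ |z.2 - y| ≤ 1 + A}.indicator
          (fun z => |g z|) z) := by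
        rw [← Real.norm_eq_abs]
        refine norm_integral_le_of_norm_le ?_ (ae_of_all _ fun z => ?_)
        · exact ((hg.abs.indicator (measurableSet_box _ _ _ _))).const_mul _
        · rw [Real.norm_eq_abs]
          refine (ker_bdd h b hA ha j v g hvg x' y z).trans ?_
          refine mul_le_mul_of_nonneg_left ?_ (by positivity)
          refine indicator_le_indicator_of_subset ?_ (fun _ => abs_nonneg _) z
          rintro z ⟨hz1, hz2⟩
          refine ⟨?_, hz2⟩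
          have h3 := abs_le.1 hz1
          have h4 := abs_le.1 hx
          rw [abs_le]
          constructor <;> linarith [h3.1, h3.2, h4.1, h4.2]
    _ = 2 ^ a * C0 ^ 2 * (1 + A) ^ a * (2 ^ j) ^ a * (2 ^ j *
        ∫ z in {z : ℝ × ℝ | |z.1 - x| ≤ 2 * (2 ^ j)⁻¹ ∧ |z.2 - y| ≤ 1 + A}, |g z|) := by
        rw [integral_const_mul, integral_indicator (measurableSet_box _ _ _ _)]
        ring

end

end Vale.Agent.P112.H964
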