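import Vale.Agent.P112.H964.Cot

/-!
# Adjoint Cotlar inequality, part 2
-/

open MeasureTheory Set
open scoped ContDiff

namespace Vale.Agent.P112.H964

noncomputable section

variable {K ψ : ℝ → ℝ}

/-- tent function -/
def tent (t : ℝ) : ℝ := max 0 (1 - |t|)

theorem tent_nonneg (t : ℝ) : 0 ≤ tent t := le_max_left _ _

theorem tent_le_one (t : ℝ) : tent t ≤ 1 := by
  unfold tent
  exact max_le zero_le_one (by linarith [abs_nonneg t])

theorem continuous_tent : Continuous tent := by unfold tent; fun_prop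

theorem tent_zero {t : ℝ} (ht : 1 ≤ |t|) : tent t = 0 := by
  unfold tent
  exact max_eq_left (by linarith)

theorem tent_lip (s t : ℝ) : |tent s - tent t| ≤ |s - t| := by
  unfold tent
  have h1 : |max 0 (1 - |s|) - max 0 (1 - |t|)| ≤ |(1 - |s|) - (1 - |t|)| := by
    have := abs_max_sub_max_le_abs (1 - |s|) (1 - |t|) 0
    rwa [max_comm 0 (1 - |s|), max_comm 0 (1 - |t|)]
  refine h1.trans ?_
  have h2 : (1 - |s|) - (1 - |t|) = |t| - |s| := by ring
  rw [h2, abs_sub_comm s t]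
  exact abs_abs_sub_abs_le_abs_sub t s

theorem integral_tent : ∫ t, tent t = 1 := by
  have h1 : ∫ t, tent t = ∫ t in (-1 : ℝ)..1, tent t := by
    rw [intervalIntegral.integral_of_le (by norm_num), ← integral_indicator measurableSet_Ioc]
    congr 1
    funext t
    by_cases ht : t ∈ Ioc (-1 : ℝ) 1
    · rw [indicator_of_mem ht]
    · rw [indicator_of_notMem ht]
      apply tent_zero
      rw [mem_Ioc, not_and_or, not_lt, not_le] at ht
      rcases ht with ht | ht
      · rw [abs_of_nonpos (by linarith)]; linarith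
      · rw [abs_of_pos (by linarith)]; linarith
  have hc : ∀ a b : ℝ, IntervalIntegrable tent volume a b :=
    fun a b => continuous_tent.intervalIntegrable a b
  rw [h1, ← intervalIntegral.integral_add_adjacent_intervals (hc (-1) 0) (hc 0 1)]
  have h2 : ∫ t in (-1 : ℝ)..0, tent t = ∫ t in (-1 : ℝ)..0, (1 + t) := by
    apply intervalIntegral.integral_congr
    intro t ht
    rw [uIcc_of_le (by norm_num), mem_Icc] at ht
    simp only [tent]
    rw [abs_of_nonpos ht.2, max_eq_right (by linarith)]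
    ring
  have h3 : ∫ t in (0 : ℝ)..1, tent t = ∫ t in (0 : ℝ)..1, (1 - t) := by
    apply intervalIntegral.integral_congr
    intro t ht
    rw [uIcc_of_le (by norm_num), mem_Icc] at ht
    simp only [tent]
    rw [abs_of_nonneg ht.1, max_eq_right (by linarith)]
  rw [h2, h3, intervalIntegral.integral_add (by simp) (by simp),
    intervalIntegral.integral_sub (by simp) (by simp)]
  simp
  norm_num

/-- tent at scale `2 ^ (-j)`. -/
def tj (j : ℕ) (r : ℝ) : ℝ := 2 ^ j * tent (2 ^ j * r)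

theorem tj_nonneg (j : ℕ) (r : ℝ) : 0 ≤ tj j r := mul_nonneg (by positivity) (tent_nonneg _)

theorem tj_le (j : ℕ) (r : ℝ) : tj j r ≤ 2 ^ j := by
  unfold tj
  have h2 : (0 : ℝ) < 2 ^ j := by positivity
  nlinarith [tent_le_one (2 ^ j * r)]

theorem tj_zero (j : ℕ) {r : ℝ} (hr : (2 ^ j)⁻¹ ≤ |r|) : tj j r = 0 := by
  unfold tj
  have h2 : (0 : ℝ) < 2 ^ j := by positivity
  rw [tent_zero, mul_zero]
  rw [abs_mul, abs_of_pos h2]
  rwa [inv_le_iff_one_le_mul₀' h2] at hr

theorem continuous_tj (j : ℕ) : Continuous (tj j) := by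
  unfold tj
  exact continuous_const.mul (continuous_tent.comp (by fun_prop))

theorem integral_tj (j : ℕ) : ∫ r, tj j r = 1 := by
  unfold tj
  rw [integral_const_mul, Measure.integral_comp_mul_left tent, integral_tent]
  have h2 : (0 : ℝ) < 2 ^ j := by positivity
  rw [abs_of_pos (by positivity), smul_eq_mul, mul_one]
  field_simp

theorem tj_lip (j : ℕ) (r s : ℝ) : |tj j r - tj j s| ≤ 2 ^ j * 2 ^ j * |r - s| := by
  unfold tj
  have h2 : (0 : ℝ) < 2 ^ j := by positivity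
  rw [← mul_sub, abs_mul, abs_of_pos h2]
  have := tent_lip (2 ^ j * r) (2 ^ j * s)
  rw [← mul_sub, abs_mul, abs_of_pos h2] at this
  calc 2 ^ j * |tent (2 ^ j * r) - tent (2 ^ j * s)| ≤ 2 ^ j * (2 ^ j * |r - s|) := by gcongr
    _ = _ := by ring

theorem integrable_tj (j : ℕ) : Integrable (tj j) := by
  refine (continuous_tj j).integrable_of_hasCompactSupport ?_
  refine HasCompactSupport.of_support_subset_isCompact
    (isCompact_Icc (a := -(2 ^ j : ℝ)⁻¹) (b := (2 ^ j)⁻¹)) ?_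
  intro r hr
  by_contra hcon
  apply hr
  apply tj_zero
  rw [mem_Icc, not_and_or, not_le, not_le] at hcon
  have h2 : (0 : ℝ) < (2 ^ j)⁻¹ := by positivity
  rcases hcon with h | h
  · rw [abs_of_neg (by linarith)]; linarith
  · rw [abs_of_pos (by linarith)]; linarith

/-! ### the smoothed kernel -/

theorem hasCompactSupport_of_zero {f : ℝ → ℝ} {b : ℝ} (hs : ∀ t, b < |t| → f t = 0) :
    HasCompactSupport f := by
  refine HasCompactSupport.of_support_subset_isCompact (isCompact_Icc (a := -b) (b := b)) ?_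
  intro t ht
  by_contra hcon
  apply ht
  apply hs
  rw [mem_Icc, not_and_or, not_le, not_le] at hcon
  rcases hcon with h | h
  · exact (by linarith : b < -t).trans_le (neg_le_abs t)
  · exact h.trans_le (le_abs_self t)

theorem exists_bdd {f : ℝ → ℝ} {b : ℝ} (hf : Continuous f) (hs : ∀ t, b < |t| → f t = 0) :
    ∃ M : ℝ, 0 ≤ M ∧ ∀ t, |f t| ≤ M := by
  obtain ⟨M, hM⟩ := (hasCompactSupport_of_zero hs).exists_bound_of_continuous hf
  exact ⟨max M 0, le_max_right _ _, fun t => ((hM t).trans (le_max_left _ _))⟩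

theorem PB.K0 {N C0 : ℝ} {m0 : ℕ} (b : PB K ψ N C0 m0) (t : ℝ) : |K t| ≤ C0 := by
  simpa using b.bK 0 (Nat.zero_le _) t

theorem PB.ψ0 {N C0 : ℝ} {m0 : ℕ} (b : PB K ψ N C0 m0) (t : ℝ) : |ψ t| ≤ C0 := by
  simpa using b.bψ 0 (Nat.zero_le _) t

theorem PB.N_pos {N C0 : ℝ} {m0 : ℕ} (b : PB K ψ N C0 m0) : 0 < N :=
  lt_of_lt_of_le one_pos b.one_le

theorem PB.lip (h : Prof K ψ) {N C0 : ℝ} {m0 : ℕ} (b : PB K ψ N C0 m0) (hm : 1 ≤ m0) (s t : ℝ) :
    |ψ s - ψ t| ≤ C0 * N * |s - t| := by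
  have h1 : ∀ x ∈ (univ : Set ℝ), HasDerivWithinAt ψ (iteratedDeriv 1 ψ x) univ x := by
    intro x _
    have := hasDerivAt_iter h.cψ 0 x
    rw [iteratedDeriv_zero, zero_add] at this
    exact this.hasDerivWithinAt
  have h2 : ∀ x ∈ (univ : Set ℝ), ‖iteratedDeriv 1 ψ x‖ ≤ C0 * N := by
    intro x _
    rw [Real.norm_eq_abs]
    simpa using b.bψ 1 hm x
  have := convex_univ.norm_image_sub_le_of_norm_hasDerivWithin_le h1 h2 (mem_univ t) (mem_univ s)
  simpa [Real.norm_eq_abs] using this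

/-- kernel of scale `i` -/
def ki (K ψ : ℝ → ℝ) (i : ℕ) (t c w : ℝ) : ℝ := (2 ^ i * K (2 ^ i * t)) * ψ (c - t * w)

theorem ker_eq (i : ℕ) (t c w : ℝ) :
    ((-1) ^ 0 * (2 ^ i) ^ (0 + 1) * Dk K ψ 0 0 0 (2 ^ i * t) c ((2 ^ i)⁻¹ * w)) = ki K ψ i t c w := by
  have h2 : (2 : ℝ) ^ i ≠ 0 := by positivity
  have : 2 ^ i * t * ((2 ^ i)⁻¹ * w) = t * w := by field_simp
  simp only [Dk, T, iteratedDeriv_zero, pow_zero, one_mul, this, zero_add, pow_one, ki]
  ring

theorem ki_zero (h : Prof K ψ) (i : ℕ) {t c w A : ℝ} (hA : 0 ≤ A) (hw : |w| ≤ A * 2 ^ i)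
    (hh : (2 ^ i)⁻¹ / 8 < |t| ∨ 1 + A < |c|) : ki K ψ i t c w = 0 := by
  unfold ki
  have h2 : (0 : ℝ) < 2 ^ i := by positivity
  by_cases ht : (2 ^ i)⁻¹ / 8 < |t|
  · rw [h.sK, mul_zero, zero_mul]
    rw [abs_mul, abs_of_pos h2]
    have := mul_lt_mul_of_pos_left ht h2
    calc (1 / 8 : ℝ) = 2 ^ i * ((2 ^ i)⁻¹ / 8) := by field_simp
      _ < _ := this
  · have hc := hh.resolve_left ht
    push Not at ht
    rw [h.sψ, mul_zero]
    have h3 : |t * w| ≤ A := by
      rw [abs_mul]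
      calc |t| * |w| ≤ ((2 ^ i)⁻¹ / 8) * (A * 2 ^ i) := by gcongr
        _ = A / 8 := by field_simp
        _ ≤ A := by linarith
    have h4 : |c| ≤ |c - t * w| + |t * w| := by
      have := abs_add_le (c - t * w) (t * w)
      simpa using this
    linarith

theorem integrable_K (h : Prof K ψ) (i : ℕ) : Integrable (fun t => 2 ^ i * K (2 ^ i * t)) := by
  refine Continuous.integrable_of_hasCompactSupport ?_ ?_
  · have := h.cK.continuous
    fun_prop
  · refine hasCompactSupport_of_zero (b := (2 ^ i)⁻¹ / 8) fun t ht => ?_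
    have h2 : (0 : ℝ) < 2 ^ i := by positivity
    rw [h.sK, mul_zero]
    rw [abs_mul, abs_of_pos h2]
    have := mul_lt_mul_of_pos_left ht h2
    calc (1 / 8 : ℝ) = 2 ^ i * ((2 ^ i)⁻¹ / 8) := by field_simp
      _ < _ := this

theorem integral_K (h : Prof K ψ) (i : ℕ) : ∫ t, 2 ^ i * K (2 ^ i * t) = 0 := by
  have h1 : ∫ t, 2 ^ i * K (2 ^ i * t) = ∫ t, 2 ^ i * K (2 ^ i * (-t)) :=
    (integral_neg_eq_self (fun t => 2 ^ i * K (2 ^ i * t)) volume).symm
  have h2 : ∫ t, 2 ^ i * K (2 ^ i * (-t)) = - ∫ t, 2 ^ i * K (2 ^ i * t) := by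
    rw [← integral_neg]
    congr 1
    funext t
    rw [mul_neg, h.oK]
    ring
  linarith

/-- the smoothed kernel. -/
def bk (K ψ : ℝ → ℝ) (j i : ℕ) (t c w : ℝ) : ℝ := ∫ r, tj j r * ki K ψ i (t + r) c w

theorem bk_eq (h : Prof K ψ) (j i : ℕ) (t c w : ℝ) :
    bk K ψ j i t c w = ∫ τ, (2 ^ i * K (2 ^ i * τ)) * (tj j (τ - t) * ψ (c - τ * w) -
      tj j (-t) * ψ c) := by
  have h1 : bk K ψ j i t c w = ∫ τ, tj j (τ - t) * ki K ψ i τ c w := by
    unfold bk
    have := integral_add_right_eq_self (μ := (volume : Measure ℝ))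
      (fun τ => tj j (τ - t) * ki K ψ i τ c w) t
    rw [← this]
    congr 1
    funext r
    rw [add_sub_cancel_right, add_comm t r]
  rw [h1]
  have h2 : ∫ τ, (2 ^ i * K (2 ^ i * τ)) * (tj j (-t) * ψ c) = 0 := by
    rw [integral_mul_const, integral_K h, zero_mul]
  have hi1 : Integrable (fun τ => tj j (τ - t) * ki K ψ i τ c w) := by
    obtain ⟨M, hM0, hM⟩ := exists_bdd h.cψ.continuous h.sψ
    refine Integrable.mono' (g := fun τ => (2 ^ j * M) * |2 ^ i * K (2 ^ i * τ)|)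
      ((integrable_K h i).abs.const_mul _) ?_ (ae_of_all _ fun τ => ?_)
    · refine Continuous.aestronglyMeasurable ?_
      unfold ki
      have := h.cK.continuous
      have := h.cψ.continuous
      have := continuous_tj j
      fun_prop
    · rw [Real.norm_eq_abs, ki, abs_mul, abs_mul, abs_of_nonneg (tj_nonneg _ _)]
      calc tj j (τ - t) * (|2 ^ i * K (2 ^ i * τ)| * |ψ (c - τ * w)|)
          ≤ 2 ^ j * (|2 ^ i * K (2 ^ i * τ)| * M) := by
            gcongr
            · exact tj_le _ _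
            · exact hM _
        _ = _ := by ring
  have hi2 : Integrable (fun τ => (2 ^ i * K (2 ^ i * τ)) * (tj j (-t) * ψ c)) :=
    (integrable_K h i).mul_const _
  rw [← sub_zero (∫ τ, tj j (τ - t) * ki K ψ i τ c w), ← h2, ← integral_sub hi1 hi2]
  congr 1
  funext τ
  unfold ki
  ring

theorem bk_bdd (h : Prof K ψ) {N C0 : ℝ} {m0 : ℕ} (b : PB K ψ N C0 m0) (hm : 1 ≤ m0)
    (j i : ℕ) (t c w : ℝ) :
    |bk K ψ j i t c w| ≤ C0 ^ 2 * 2 ^ j * ((2 ^ i)⁻¹ * (2 ^ j + N * |w|)) := by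
  have hN0 : 0 < N := b.N_pos
  have hC0 := b.C0_nonneg
  rw [bk_eq h]
  have h2 : (0 : ℝ) < 2 ^ i := by positivity
  have h3 : (0 : ℝ) < 2 ^ j := by positivity
  have key : ∀ τ : ℝ, ‖(2 ^ i * K (2 ^ i * τ)) * (tj j (τ - t) * ψ (c - τ * w) -
      tj j (-t) * ψ c)‖ ≤ (Icc (-(2 ^ i : ℝ)⁻¹ / 8) ((2 ^ i)⁻¹ / 8)).indicator
        (fun _ => 2 ^ i * C0 * ((2 ^ i)⁻¹ / 8 * (2 ^ j * C0 * (2 ^ j + N * |w|)))) τ := by
    intro τ
    by_cases hτ : τ ∈ Icc (-(2 ^ i : ℝ)⁻¹ / 8) ((2 ^ i)⁻¹ / 8)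
    · rw [indicator_of_mem hτ, Real.norm_eq_abs, abs_mul, abs_mul, abs_of_pos h2]
      have ht : |τ| ≤ (2 ^ i)⁻¹ / 8 := by
        rw [abs_le]; rw [mem_Icc] at hτ; constructor <;> linarith [hτ.1, hτ.2]
      have e1 : |tj j (τ - t) * ψ (c - τ * w) - tj j (-t) * ψ c| ≤
          |τ| * (2 ^ j * C0 * (2 ^ j + N * |w|)) := by
        have e2 : tj j (τ - t) * ψ (c - τ * w) - tj j (-t) * ψ c =
            (tj j (τ - t) - tj j (-t)) * ψ (c - τ * w) + tj j (-t) * (ψ (c - τ * w) - ψ c) := by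
          ring
        rw [e2]
        have e3 := tj_lip j (τ - t) (-t)
        have e4 : τ - t - -t = τ := by ring
        rw [e4] at e3
        have e5 := b.lip h hm (c - τ * w) c
        have e6 : |c - τ * w - c| = |τ| * |w| := by
          rw [← abs_mul, ← abs_neg]; congr 1; ring
        rw [e6] at e5
        calc |(tj j (τ - t) - tj j (-t)) * ψ (c - τ * w) + tj j (-t) * (ψ (c - τ * w) - ψ c)|
            ≤ |tj j (τ - t) - tj j (-t)| * |ψ (c - τ * w)| +
              |tj j (-t)| * |ψ (c - τ * w) - ψ c| := by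
              refine (abs_add_le _ _).trans ?_
              rw [abs_mul, abs_mul]
          _ ≤ (2 ^ j * 2 ^ j * |τ|) * C0 + 2 ^ j * (C0 * N * (|τ| * |w|)) := by
              gcongr
              · exact b.ψ0 _
              · rw [abs_of_nonneg (tj_nonneg _ _)]; exact tj_le _ _
          _ = |τ| * (2 ^ j * C0 * (2 ^ j + N * |w|)) := by ring
      refine mul_le_mul (mul_le_mul_of_nonneg_left (b.K0 _) h2.le) (e1.trans ?_)
        (abs_nonneg _) (by positivity)
      gcongr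
    · rw [indicator_of_notMem hτ]
      have : K (2 ^ i * τ) = 0 := by
        apply h.sK
        rw [abs_mul, abs_of_pos h2]
        have h5 : (2 ^ i)⁻¹ / 8 < |τ| := by
          by_contra hcon
          push Not at hcon
          apply hτ
          rw [abs_le] at hcon
          rw [mem_Icc]
          constructor <;> linarith [hcon.1, hcon.2]
        have := mul_lt_mul_of_pos_left h5 h2
        calc (1 / 8 : ℝ) = 2 ^ i * ((2 ^ i)⁻¹ / 8) := by field_simp
          _ < _ := this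
      rw [this]
      simp
  rw [← Real.norm_eq_abs]
  refine (norm_integral_le_of_norm_le ?_ (ae_of_all _ key)).trans ?_
  · exact (integrable_indicator_iff measurableSet_Icc).2 continuous_const.integrableOn_Icc
  · rw [integral_indicator measurableSet_Icc, setIntegral_const, smul_eq_mul]
    rw [Measure.real, Real.volume_Icc, ENNReal.toReal_ofReal (by
      have : (0 : ℝ) < (2 ^ i)⁻¹ := by positivity
      linarith)]
    have e7 : ((2 ^ i)⁻¹ / 8 - -(2 ^ i : ℝ)⁻¹ / 8) * (2 ^ i * C0 * ((2 ^ i)⁻¹ / 8 *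
        (2 ^ j * C0 * (2 ^ j + N * |w|)))) =
        (1 / 32) * (C0 ^ 2 * 2 ^ j * ((2 ^ i)⁻¹ * (2 ^ j + N * |w|))) := by
      field_simp
      ring
    rw [e7]
    have : 0 ≤ C0 ^ 2 * 2 ^ j * ((2 ^ i)⁻¹ * (2 ^ j + N * |w|)) := by positivity
    linarith

theorem bk_zero (h : Prof K ψ) {j i : ℕ} (hij : j ≤ i) {t c w A : ℝ} (hA : 0 ≤ A)
    (hw : |w| ≤ A * 2 ^ i) (hh : 2 * (2 ^ j)⁻¹ < |t| ∨ 1 + A < |c|) :
    bk K ψ j i t c w = 0 := by
  unfold bk
  have : ∀ r, tj j r * ki K ψ i (t + r) c w = 0 := by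
    intro r
    by_cases hr : (2 ^ j)⁻¹ ≤ |r|
    · rw [tj_zero j hr, zero_mul]
    rw [ki_zero h i hA hw, mul_zero]
    rcases hh with ht | hc
    · left
      push Not at hr
      have h1 : |t| ≤ |t + r| + |r| := by
        have := abs_add_le (t + r) (-r)
        simpa using this
      have h2 : (2 ^ i : ℝ)⁻¹ ≤ (2 ^ j)⁻¹ := by
        apply inv_anti₀ (by positivity)
        exact pow_le_pow_right₀ (by norm_num) hij
      have h3 : (0 : ℝ) < (2 ^ i)⁻¹ := by positivity
      linarith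
    · right; exact hc
  simp [this]

end

end Vale.Agent.P112.H964
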