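import Vale.Agent.P112.H964.Cot2

/-!
# Adjoint Cotlar inequality, part 3: the inequality in the frame of the tree
-/

open MeasureTheory Set
open scoped ContDiff

namespace Vale.Agent.P112.H964

noncomputable section

variable {K ψ : ℝ → ℝ}

theorem sum_Ico_geom (m k : ℕ) : ∑ i ∈ Finset.Ico m (m + k), ((2 : ℝ) ^ i)⁻¹ =
    2 * (2 ^ m)⁻¹ - 2 * (2 ^ (m + k))⁻¹ := by
  induction k with
  | zero => simp
  | succ k ih =>
    rw [← add_assoc, Finset.sum_Ico_succ_top (by omega), ih, pow_succ]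
    have : (2 : ℝ) ^ (m + k) ≠ 0 := by positivity
    field_simp
    ring

theorem sum_geom_le (m : ℕ) (s : Finset ℕ) (hs : ∀ i ∈ s, m ≤ i) :
    ∑ i ∈ s, ((2 : ℝ) ^ i)⁻¹ ≤ 2 * (2 ^ m)⁻¹ := by
  have h1 : s ⊆ Finset.Ico m (m + (s.sup id + 1)) := by
    intro i hi
    rw [Finset.mem_Ico]
    refine ⟨hs i hi, ?_⟩
    have : i ≤ s.sup id := Finset.le_sup (f := id) hi
    omega
  calc ∑ i ∈ s, ((2 : ℝ) ^ i)⁻¹ ≤ ∑ i ∈ Finset.Ico m (m + (s.sup id + 1)), ((2 : ℝ) ^ i)⁻¹ :=
        Finset.sum_le_sum_of_subset_of_nonneg h1 fun i _ _ => by positivity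
    _ ≤ _ := by
        rw [sum_Ico_geom]
        have : (0 : ℝ) < (2 ^ (m + (s.sup id + 1)))⁻¹ := by positivity
        linarith

/-- the summation over the scales of a point. -/
theorem sum_scales_le {A w : ℝ} (hA : 0 ≤ A) (j : ℕ) (s : Finset ℕ) (hs : ∀ i ∈ s, j + 1 ≤ i)
    (hw : ∀ i ∈ s, |w| ≤ A * 2 ^ i) :
    ∑ i ∈ s, ((2 : ℝ) ^ i)⁻¹ * (2 ^ j + |w|) ≤ 1 + 2 * A := by
  rw [← Finset.sum_mul, mul_add]
  have h1 : (∑ i ∈ s, ((2 : ℝ) ^ i)⁻¹) * 2 ^ j ≤ 1 := by
    have := sum_geom_le (j + 1) s hs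
    calc (∑ i ∈ s, ((2 : ℝ) ^ i)⁻¹) * 2 ^ j ≤ (2 * (2 ^ (j + 1))⁻¹) * 2 ^ j := by gcongr
      _ = 1 := by
        rw [pow_succ]
        field_simp
  have h2 : (∑ i ∈ s, ((2 : ℝ) ^ i)⁻¹) * |w| ≤ 2 * A := by
    rcases s.eq_empty_or_nonempty with he | hne
    · rw [he]; simp; exact hA
    · have h3 := hw _ (s.min'_mem hne)
      have h4 := sum_geom_le (s.min' hne) s (fun i hi => s.min'_le i hi)
      calc (∑ i ∈ s, ((2 : ℝ) ^ i)⁻¹) * |w| ≤ (2 * (2 ^ (s.min' hne))⁻¹) *
            (A * 2 ^ (s.min' hne)) := by gcongr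
        _ = 2 * A := by field_simp
  linarith

/-- hypotheses on the data of a tree, in its own frame. -/
structure Tr (v g : ℝ × ℝ → ℝ) (E : ℕ → Set (ℝ × ℝ)) (A N : ℝ) (n : ℕ) : Prop where
  mv : Measurable v
  mE : ∀ i, MeasurableSet (E i)
  ig : Integrable g
  A0 : 0 ≤ A
  sl : ∀ i < n, ∀ z ∈ E i, |v z| ≤ A / N * 2 ^ i

variable {v g : ℝ × ℝ → ℝ} {E : ℕ → Set (ℝ × ℝ)} {A N C0 : ℝ} {n m0 : ℕ}

theorem Tr.iE (t : Tr v g E A N n) (i : ℕ) : Integrable ((E i).indicator g) :=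
  t.ig.indicator (t.mE i)

theorem Tr.vE (t : Tr v g E A N n) {i : ℕ} (hi : i < n) :
    ∀ z, (E i).indicator g z ≠ 0 → |v z| ≤ A / N * 2 ^ i := by
  intro z hz
  apply t.sl i hi z
  by_contra hcon
  exact hz (indicator_of_notMem hcon g)

theorem nv_le {w r : ℝ} (hN : 0 < N) (hw : |w| ≤ A / N * r) : N * |w| ≤ A * r := by
  calc N * |w| ≤ N * (A / N * r) := by gcongr
    _ = A * r := by field_simp

/-- Fubini for the smoothed operator. -/
theorem smooth_S (h : Prof K ψ) (b : PB K ψ N C0 m0) (t : Tr v g E A N n) (i j : ℕ) (x y : ℝ) :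
    ∫ r, tj j r * S K ψ 0 i v ((E i).indicator g) (x - r) y =
      ∫ z : ℝ × ℝ, bk K ψ j i (z.1 - x) (z.2 - y) (v z) * (E i).indicator g z := by
  have hC0 := b.C0_nonneg
  have h1 : ∀ r, tj j r * S K ψ 0 i v ((E i).indicator g) (x - r) y =
      ∫ z : ℝ × ℝ, tj j r * (ki K ψ i (z.1 - x + r) (z.2 - y) (v z) * (E i).indicator g z) := by
    intro r
    rw [integral_const_mul]
    congr 1
    unfold S
    congr 1
    funext z
    rw [ker_eq]
    congr 2
    ring
  simp only [h1]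
  rw [integral_integral_swap]
  · congr 1
    funext z
    unfold bk
    rw [← integral_mul_const]
    congr 1
    funext r
    ring
  · -- integrability on the product
    have hb : Integrable (fun p : ℝ × (ℝ × ℝ) =>
        tj j p.1 * ((2 ^ i * C0 * C0) * |(E i).indicator g p.2|)) (volume.prod volume) :=
      (integrable_tj j).mul_prod ((t.iE i).abs.const_mul _)
    refine Integrable.mono' hb ?_ (ae_of_all _ fun p => ?_)
    · have hk : Measurable fun p : ℝ × (ℝ × ℝ) =>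
          ki K ψ i (p.2.1 - x + p.1) (p.2.2 - y) (v p.2) := by
        unfold ki
        have c1 := h.cK.continuous.measurable
        have c2 := h.cψ.continuous.measurable
        have c3 := t.mv
        fun_prop
      have h2 := (t.iE i).1.comp_snd (μ := (volume : Measure ℝ))
      exact ((continuous_tj j).measurable.comp measurable_fst).aestronglyMeasurable.mul
        (hk.aestronglyMeasurable.mul h2)
    · simp only [Function.uncurry]
      rw [Real.norm_eq_abs, abs_mul, abs_mul, abs_of_nonneg (tj_nonneg _ _)]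
      refine mul_le_mul_of_nonneg_left ?_ (tj_nonneg _ _)
      refine mul_le_mul_of_nonneg_right ?_ (abs_nonneg _)
      unfold ki
      rw [abs_mul, abs_mul, abs_of_pos (by positivity : (0 : ℝ) < 2 ^ i)]
      gcongr
      · exact b.K0 _
      · exact b.ψ0 _

theorem aesm_bk (h : Prof K ψ) (t : Tr v g E A N n) (i j : ℕ) (x y : ℝ) :
    AEStronglyMeasurable (fun z : ℝ × ℝ =>
      bk K ψ j i (z.1 - x) (z.2 - y) (v z) * (E i).indicator g z) volume := by
  refine AEStronglyMeasurable.mul ?_ (t.iE i).1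
  unfold bk
  have hk : StronglyMeasurable (Function.uncurry fun (z : ℝ × ℝ) (r : ℝ) =>
      tj j r * ki K ψ i (z.1 - x + r) (z.2 - y) (v z)) := by
    refine Measurable.stronglyMeasurable ?_
    have hk : Measurable fun p : (ℝ × ℝ) × ℝ =>
        ki K ψ i (p.1.1 - x + p.2) (p.1.2 - y) (v p.1) := by
      unfold ki
      have c1 := h.cK.continuous.measurable
      have c2 := h.cψ.continuous.measurable
      have c3 := t.mv
      fun_prop
    exact ((continuous_tj j).measurable.comp measurable_snd).mul hk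
  exact (hk.integral_prod_right).aestronglyMeasurable

/-- the fine scales are killed by smoothing. -/
theorem fine_le (h : Prof K ψ) (b : PB K ψ N C0 m0) (hm : 1 ≤ m0) (t : Tr v g E A N n)
    (j : ℕ) (x y : ℝ) :
    |∑ i ∈ Finset.Ico (j + 1) n, ∫ r, tj j r * S K ψ 0 i v ((E i).indicator g) (x - r) y| ≤
      C0 ^ 2 * (1 + 2 * A) * Bx A j ({z | ∃ i < n, z ∈ E i}.indicator g) x y := by
  classical
  obtain ⟨C, hCd⟩ : ∃ C, C = C0 ^ 2 := ⟨_, rfl⟩
  have hN0 := b.N_pos
  have hC0 : 0 ≤ C := by rw [hCd]; positivity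
  have hC : ∀ (j i : ℕ) (t c w : ℝ),
      |bk K ψ j i t c w| ≤ C * 2 ^ j * ((2 ^ i)⁻¹ * (2 ^ j + N * |w|)) := by
    rw [hCd]; exact bk_bdd h b hm
  rw [← hCd]
  have h1 : ∀ i ∈ Finset.Ico (j + 1) n,
      ∫ r, tj j r * S K ψ 0 i v ((E i).indicator g) (x - r) y =
      ∫ z : ℝ × ℝ, bk K ψ j i (z.1 - x) (z.2 - y) (v z) * (E i).indicator g z :=
    fun i _ => smooth_S h b t i j x y
  rw [Finset.sum_congr rfl h1]
  have hU : MeasurableSet {z | ∃ i < n, z ∈ E i} := by
    have : {z | ∃ i < n, z ∈ E i} = ⋃ i ∈ Finset.range n, E i := by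
      ext z; simp
    rw [this]
    exact Finset.measurableSet_biUnion _ fun i _ => t.mE i
  -- pointwise bound of a single term
  have hsing : ∀ i ∈ Finset.Ico (j + 1) n, ∀ z : ℝ × ℝ,
      |bk K ψ j i (z.1 - x) (z.2 - y) (v z) * (E i).indicator g z| ≤
      {z : ℝ × ℝ | |z.1 - x| ≤ 2 * (2 ^ j)⁻¹ ∧ |z.2 - y| ≤ 1 + A}.indicator
        (fun z => (if z ∈ E i then C * 2 ^ j * ((2 ^ i)⁻¹ * (2 ^ j + N * |v z|)) else 0) * |g z|) z := by
    intro i hi z
    rw [Finset.mem_Ico] at hi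
    by_cases hz : z ∈ E i
    · by_cases hb : |z.1 - x| ≤ 2 * (2 ^ j)⁻¹ ∧ |z.2 - y| ≤ 1 + A
      · have hm : z ∈ {z : ℝ × ℝ | |z.1 - x| ≤ 2 * (2 ^ j)⁻¹ ∧ |z.2 - y| ≤ 1 + A} := hb
        rw [indicator_of_mem hm, if_pos hz, indicator_of_mem hz, abs_mul]
        exact mul_le_mul_of_nonneg_right (hC _ _ _ _ _) (abs_nonneg _)
      · have hm : z ∉ {z : ℝ × ℝ | |z.1 - x| ≤ 2 * (2 ^ j)⁻¹ ∧ |z.2 - y| ≤ 1 + A} := hb
        rw [indicator_of_notMem hm]
        have h0 : bk K ψ j i (z.1 - x) (z.2 - y) (v z) = 0 := by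
          apply bk_zero h (by omega) t.A0 ((t.sl i hi.2 z hz).trans
            (mul_le_mul_of_nonneg_right (div_le_self t.A0 b.one_le) (by positivity)))
          by_contra hcon
          push Not at hcon
          exact hb hcon
        rw [h0, zero_mul, abs_zero]
    · rw [indicator_of_notMem hz, mul_zero, abs_zero]
      refine indicator_nonneg (fun z _ => ?_) _
      refine mul_nonneg ?_ (abs_nonneg _)
      split_ifs
      · positivity
      · exact le_rfl
  have hbd : ∀ z : ℝ × ℝ, |∑ i ∈ Finset.Ico (j + 1) n,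
      bk K ψ j i (z.1 - x) (z.2 - y) (v z) * (E i).indicator g z| ≤
      (C * (1 + 2 * A) * 2 ^ j) * {z : ℝ × ℝ | |z.1 - x| ≤ 2 * (2 ^ j)⁻¹ ∧
        |z.2 - y| ≤ 1 + A}.indicator
        (fun z => |({z | ∃ i < n, z ∈ E i}.indicator g) z|) z := by
    intro z
    refine (Finset.abs_sum_le_sum_abs _ _).trans ?_
    refine (Finset.sum_le_sum fun i hi => hsing i hi z).trans ?_
    by_cases hb : |z.1 - x| ≤ 2 * (2 ^ j)⁻¹ ∧ |z.2 - y| ≤ 1 + A
    · simp only [indicator_of_mem (show z ∈ {z : ℝ × ℝ | |z.1 - x| ≤ 2 * (2 ^ j)⁻¹ ∧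
        |z.2 - y| ≤ 1 + A} from hb)]
      rw [← Finset.sum_mul, ← Finset.sum_filter]
      by_cases hne : (Finset.filter (fun i => z ∈ E i) (Finset.Ico (j + 1) n)).Nonempty
      · obtain ⟨i, hi⟩ := hne
        rw [Finset.mem_filter, Finset.mem_Ico] at hi
        rw [indicator_of_mem (show z ∈ {z | ∃ i < n, z ∈ E i} from ⟨i, hi.1.2, hi.2⟩)]
        refine mul_le_mul_of_nonneg_right ?_ (abs_nonneg _)
        rw [← Finset.mul_sum]
        have := sum_scales_le t.A0 (w := N * |v z|) j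
          (Finset.filter (fun i => z ∈ E i) (Finset.Ico (j + 1) n))
          (fun i hi => by
            rw [Finset.mem_filter, Finset.mem_Ico] at hi; exact hi.1.1)
          (fun i hi => by
            rw [Finset.mem_filter, Finset.mem_Ico] at hi
            rw [abs_of_nonneg (by positivity)]
            exact nv_le hN0 (t.sl i hi.1.2 z hi.2))
        rw [abs_of_nonneg (by positivity : 0 ≤ N * |v z|)] at this
        calc C * 2 ^ j * ∑ i ∈ Finset.filter (fun i => z ∈ E i) (Finset.Ico (j + 1) n),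
              (((2 : ℝ) ^ i)⁻¹ * (2 ^ j + N * |v z|)) ≤ C * 2 ^ j * (1 + 2 * A) := by gcongr
          _ = _ := by ring
      · rw [Finset.not_nonempty_iff_eq_empty] at hne
        rw [hne, Finset.sum_empty, zero_mul]
        have := t.A0
        positivity
    · have hm : z ∉ {z : ℝ × ℝ | |z.1 - x| ≤ 2 * (2 ^ j)⁻¹ ∧ |z.2 - y| ≤ 1 + A} := hb
      simp only [indicator_of_notMem hm, mul_zero, Finset.sum_const_zero]
      exact le_rfl
  have hint : Integrable (fun z => (C * (1 + 2 * A) * 2 ^ j) * {z : ℝ × ℝ |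
      |z.1 - x| ≤ 2 * (2 ^ j)⁻¹ ∧ |z.2 - y| ≤ 1 + A}.indicator
        (fun z => |({z | ∃ i < n, z ∈ E i}.indicator g) z|) z) :=
    (((t.ig.indicator hU).abs).indicator (measurableSet_box _ _ _ _)).const_mul _
  have hI : ∀ i ∈ Finset.Ico (j + 1) n, Integrable (fun z : ℝ × ℝ =>
      bk K ψ j i (z.1 - x) (z.2 - y) (v z) * (E i).indicator g z) := by
    intro i hi
    have hi' := Finset.mem_Ico.1 hi
    refine Integrable.mono' (g := fun z => (C * 2 ^ j * ((2 ^ i)⁻¹ * (2 ^ j + N * (A / N * 2 ^ i)))) *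
      |(E i).indicator g z|) ((t.iE i).abs.const_mul _) (aesm_bk h t i j x y)
      (ae_of_all _ fun z => ?_)
    rw [Real.norm_eq_abs, abs_mul]
    by_cases hz : z ∈ E i
    · refine mul_le_mul_of_nonneg_right ((hC _ _ _ _ _).trans ?_) (abs_nonneg _)
      have := t.sl i hi'.2 z hz
      gcongr
    · rw [indicator_of_notMem hz]; simp
  rw [← integral_finsetSum _ hI, ← Real.norm_eq_abs]
  refine (norm_integral_le_of_norm_le hint (ae_of_all _ fun z => ?_)).trans ?_
  · rw [Real.norm_eq_abs]; exact hbd z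
  · rw [integral_const_mul, integral_indicator (measurableSet_box _ _ _ _)]
    unfold Bx
    rw [mul_assoc (C * (1 + 2 * A))]

end

end Vale.Agent.P112.H964
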