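import Vale.Agent.P112.H964.Cot3

/-!
# Adjoint Cotlar inequality, part 4: the inequality in the frame of the tree
-/

open MeasureTheory Set
open scoped ContDiff

namespace Vale.Agent.P112.H964

noncomputable section

variable {K ψ : ℝ → ℝ} {v g : ℝ × ℝ → ℝ} {E : ℕ → Set (ℝ × ℝ)} {A N C0 : ℝ} {n m0 : ℕ}

/-- The tree sum, in the frame of the tree; `a`-th `x`-derivative. -/
def FD (K ψ : ℝ → ℝ) (a : ℕ) (v g : ℝ × ℝ → ℝ) (E : ℕ → Set (ℝ × ℝ)) (m : ℕ) (x y : ℝ) : ℝ :=
  ∑ i ∈ Finset.range m, S K ψ a i v ((E i).indicator g) x y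

theorem hasDerivAt_FD (h : Prof K ψ) (b : PB K ψ N C0 m0) (t : Tr v g E A N n) {a m : ℕ}
    (ha : a + 1 ≤ m0) (hm : m ≤ n) (x y : ℝ) :
    HasDerivAt (fun x => FD K ψ a v g E m x y) (FD K ψ (a + 1) v g E m x y) x := by
  unfold FD
  exact HasDerivAt.fun_sum (u := Finset.range m)
    (A := fun i x => S K ψ a i v ((E i).indicator g) x y)
    (A' := fun i => S K ψ (a + 1) i v ((E i).indicator g) x y) (x := x) fun i hi =>
      hasDerivAt_S h b t.A0 ha i t.mv (t.iE i)
        (t.vE (lt_of_lt_of_le (Finset.mem_range.1 hi) hm)) x y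

theorem continuous_FD (h : Prof K ψ) (b : PB K ψ N C0 m0) (t : Tr v g E A N n) {a m : ℕ}
    (ha : a + 1 ≤ m0) (hm : m ≤ n) (y : ℝ) : Continuous (fun x => FD K ψ a v g E m x y) :=
  continuous_iff_continuousAt.2 fun x => (hasDerivAt_FD h b t ha hm x y).continuousAt

theorem abs_FD_le (h : Prof K ψ) (b : PB K ψ N C0 m0) (t : Tr v g E A N n) {a m : ℕ}
    (ha : a ≤ m0) (hm : m ≤ n) (x y : ℝ) :
    |FD K ψ a v g E m x y| ≤ 2 ^ a * C0 ^ 2 * (1 + A) ^ a *
      ∑ i ∈ Finset.range m, (2 ^ i) ^ a * Bx A i ((E i).indicator g) x y := by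
  unfold FD
  rw [Finset.mul_sum]
  refine (Finset.abs_sum_le_sum_abs _ _).trans (Finset.sum_le_sum fun i hi => ?_)
  have := abs_S_le h b t.A0 ha i v _ (t.iE i) (t.vE (lt_of_lt_of_le (Finset.mem_range.1 hi) hm))
    x y x (by simp)
  linarith

theorem integrable_tj_mul {F : ℝ → ℝ} (hF : Continuous F) (j : ℕ) :
    Integrable (fun r => tj j r * F r) := by
  refine ((continuous_tj j).mul hF).integrable_of_hasCompactSupport ?_
  refine HasCompactSupport.of_support_subset_isCompact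
    (isCompact_Icc (a := -(2 ^ j : ℝ)⁻¹) (b := (2 ^ j)⁻¹)) ?_
  intro r hr
  by_contra hcon
  apply hr
  rw [Pi.mul_apply, tj_zero, zero_mul]
  rw [mem_Icc, not_and_or, not_le, not_le] at hcon
  have h2 : (0 : ℝ) < (2 ^ j)⁻¹ := by positivity
  rcases hcon with h | h
  · rw [abs_of_neg (by linarith)]; linarith
  · rw [abs_of_pos (by linarith)]; linarith

/-- The coarse scales do not vary. -/
theorem coarse_le (h : Prof K ψ) (b : PB K ψ N C0 m0) (hm0 : 1 ≤ m0) (t : Tr v g E A N n)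
    {j : ℕ} (hj : j < n) (x y r : ℝ) (hr : |r| ≤ (2 ^ j)⁻¹) :
    |FD K ψ 0 v g E (j + 1) x y - FD K ψ 0 v g E (j + 1) (x - r) y| ≤
      2 * C0 ^ 2 * (1 + A) *
        ∑ i ∈ Finset.range (j + 1), 2 ^ i / 2 ^ j * Bx A i ((E i).indicator g) x y := by
  unfold FD
  rw [← Finset.sum_sub_distrib, Finset.mul_sum]
  refine (Finset.abs_sum_le_sum_abs _ _).trans (Finset.sum_le_sum fun i hi => ?_)
  have hij : i ≤ j := by
    have := Finset.mem_range.1 hi
    omega
  have hji : ((2 : ℝ) ^ j)⁻¹ ≤ (2 ^ i)⁻¹ := by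
    apply inv_anti₀ (by positivity)
    exact pow_le_pow_right₀ (by norm_num) hij
  have hB := Bx_nonneg A i ((E i).indicator g) x y
  have h1 : ∀ x' ∈ Metric.closedBall x ((2 : ℝ) ^ i)⁻¹,
      HasDerivWithinAt (fun x => S K ψ 0 i v ((E i).indicator g) x y)
        (S K ψ 1 i v ((E i).indicator g) x' y) (Metric.closedBall x ((2 : ℝ) ^ i)⁻¹) x' := by
    intro x' _
    exact (hasDerivAt_S h b t.A0 (a := 0) (by omega) i t.mv (t.iE i)
      (t.vE (by omega)) x' y).hasDerivWithinAt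
  have h2 : ∀ x' ∈ Metric.closedBall x ((2 : ℝ) ^ i)⁻¹,
      ‖S K ψ 1 i v ((E i).indicator g) x' y‖ ≤
        2 * C0 ^ 2 * (1 + A) * 2 ^ i * Bx A i ((E i).indicator g) x y := by
    intro x' hx'
    rw [Metric.mem_closedBall, Real.dist_eq] at hx'
    rw [Real.norm_eq_abs]
    have := abs_S_le h b t.A0 (a := 1) hm0 i v _ (t.iE i) (t.vE (by omega)) x y x' hx'
    simpa using this
  have h3 := (convex_closedBall x ((2 : ℝ) ^ i)⁻¹).norm_image_sub_le_of_norm_hasDerivWithin_le
    h1 h2 (x := x - r) (y := x)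
    (by rw [Metric.mem_closedBall, Real.dist_eq]; simpa using hr.trans hji)
    (Metric.mem_closedBall_self (by positivity))
  rw [Real.norm_eq_abs, Real.norm_eq_abs, sub_sub_cancel] at h3
  refine h3.trans ?_
  have hA := t.A0
  calc 2 * C0 ^ 2 * (1 + A) * 2 ^ i * Bx A i ((E i).indicator g) x y * |r|
      ≤ 2 * C0 ^ 2 * (1 + A) * 2 ^ i * Bx A i ((E i).indicator g) x y * (2 ^ j)⁻¹ := by
        gcongr
    _ = _ := by ring

theorem measurableSet_ball1 (x r : ℝ) : MeasurableSet {x' : ℝ | |x' - x| ≤ r} :=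
  measurableSet_le (continuous_abs.measurable.comp (measurable_id.sub_const x)) measurable_const

theorem ball1_eq (x r : ℝ) : {x' : ℝ | |x' - x| ≤ r} = Icc (x - r) (x + r) := by
  ext x'
  simp only [mem_ofPred_eq, mem_Icc, abs_le]
  constructor
  · rintro ⟨h1, h2⟩; constructor <;> linarith
  · rintro ⟨h1, h2⟩; constructor <;> linarith

/-- Smoothing the whole sum. -/
theorem whole_le {F : ℝ → ℝ} (hF : Continuous F) (j : ℕ) (x : ℝ) :
    |∫ r, tj j r * F (x - r)| ≤ 2 ^ j * ∫ x' in {x' : ℝ | |x' - x| ≤ (2 ^ j)⁻¹}, |F x'| := by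
  have h1 : ∫ r, tj j r * F (x - r) = ∫ x', tj j (x - x') * F x' := by
    have := integral_sub_left_eq_self (fun x' => tj j (x - x') * F x') (volume : Measure ℝ) x
    rw [← this]
    congr 1
    funext r
    rw [sub_sub_cancel]
  rw [h1, ← integral_const_mul, ← integral_indicator (measurableSet_ball1 _ _),
    ← Real.norm_eq_abs]
  refine norm_integral_le_of_norm_le ?_ (ae_of_all _ fun x' => ?_)
  · rw [integrable_indicator_iff (measurableSet_ball1 _ _), ball1_eq]
    exact (hF.abs.const_mul _ |>.continuousOn).integrableOn_Icc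
  · by_cases hx : |x' - x| ≤ (2 ^ j)⁻¹
    · rw [indicator_of_mem (by exact hx), Real.norm_eq_abs, abs_mul,
        abs_of_nonneg (tj_nonneg _ _)]
      gcongr
      exact tj_le _ _
    · rw [indicator_of_notMem (by exact hx), tj_zero, zero_mul, norm_zero]
      rw [abs_sub_comm] at hx
      exact (not_le.1 hx).le

/-- The adjoint Cotlar inequality in the frame of the tree. -/
theorem cotlar (h : Prof K ψ) (b : PB K ψ N C0 m0) (hm0 : 1 ≤ m0) (t : Tr v g E A N n)
    {j : ℕ} (hj : j < n) (x y : ℝ) :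
    |FD K ψ 0 v g E (j + 1) x y| ≤
      2 ^ j * (∫ x' in {x' : ℝ | |x' - x| ≤ (2 ^ j)⁻¹}, |FD K ψ 0 v g E n x' y|) +
      C0 ^ 2 * (1 + 2 * A) * Bx A j ({z | ∃ i < n, z ∈ E i}.indicator g) x y +
      2 * C0 ^ 2 * (1 + A) *
        ∑ i ∈ Finset.range (j + 1), 2 ^ i / 2 ^ j * Bx A i ((E i).indicator g) x y := by
  have hcont : ∀ m ≤ n, Continuous fun r => FD K ψ 0 v g E m (x - r) y := fun m hm =>
    (continuous_FD h b t (a := 0) (by omega) hm y).comp (by fun_prop)
  have hcS : ∀ i < n, Continuous fun r => S K ψ 0 i v ((E i).indicator g) (x - r) y := by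
    intro i hi
    have h1 : Continuous fun x => S K ψ 0 i v ((E i).indicator g) x y :=
      continuous_iff_continuousAt.2 fun x => (hasDerivAt_S h b t.A0 (a := 0) (by omega) i t.mv
        (t.iE i) (t.vE hi) x y).continuousAt
    exact h1.comp (by fun_prop)
  -- splitting
  set F1 : ℝ := FD K ψ 0 v g E (j + 1) x y with hF1
  set R : ℝ := 2 * C0 ^ 2 * (1 + A) *
    ∑ i ∈ Finset.range (j + 1), 2 ^ i / 2 ^ j * Bx A i ((E i).indicator g) x y with hR
  have hsplit : ∀ r, FD K ψ 0 v g E n (x - r) y = FD K ψ 0 v g E (j + 1) (x - r) y +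
      ∑ i ∈ Finset.Ico (j + 1) n, S K ψ 0 i v ((E i).indicator g) (x - r) y := by
    intro r
    unfold FD
    rw [Finset.range_eq_Ico, Finset.range_eq_Ico]
    exact (Finset.sum_Ico_consecutive _ (by omega) (by omega)).symm
  have e1 : ∫ r, tj j r * FD K ψ 0 v g E n (x - r) y =
      (∫ r, tj j r * FD K ψ 0 v g E (j + 1) (x - r) y) +
      ∑ i ∈ Finset.Ico (j + 1) n, ∫ r, tj j r * S K ψ 0 i v ((E i).indicator g) (x - r) y := by
    rw [← integral_finsetSum]
    · rw [← integral_add (integrable_tj_mul (hcont _ (by omega)) j)]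
      · congr 1
        funext r
        rw [hsplit, mul_add, Finset.mul_sum]
      · refine integrable_finsetSum _ fun i hi => ?_
        exact integrable_tj_mul (hcS i (Finset.mem_Ico.1 hi).2) j
    · intro i hi
      exact integrable_tj_mul (hcS i (Finset.mem_Ico.1 hi).2) j
  have e2 : F1 - ∫ r, tj j r * FD K ψ 0 v g E (j + 1) (x - r) y =
      ∫ r, tj j r * (F1 - FD K ψ 0 v g E (j + 1) (x - r) y) := by
    have h1 : ∫ r, tj j r * F1 = F1 := by
      rw [integral_mul_const, integral_tj, one_mul]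
    calc F1 - ∫ r, tj j r * FD K ψ 0 v g E (j + 1) (x - r) y
        = (∫ r, tj j r * F1) - ∫ r, tj j r * FD K ψ 0 v g E (j + 1) (x - r) y := by rw [h1]
      _ = ∫ r, (tj j r * F1 - tj j r * FD K ψ 0 v g E (j + 1) (x - r) y) := by
          rw [← integral_sub ((integrable_tj j).mul_const _)
            (integrable_tj_mul (hcont _ (by omega)) j)]
      _ = _ := by
          congr 1
          funext r
          ring
  have e3 : |∫ r, tj j r * (F1 - FD K ψ 0 v g E (j + 1) (x - r) y)| ≤ R := by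
    have h2 : |∫ r, tj j r * (F1 - FD K ψ 0 v g E (j + 1) (x - r) y)| ≤ ∫ r, tj j r * R := by
      rw [← Real.norm_eq_abs]
      refine norm_integral_le_of_norm_le ((integrable_tj j).mul_const _)
        (ae_of_all _ fun r => ?_)
      rw [Real.norm_eq_abs, abs_mul, abs_of_nonneg (tj_nonneg _ _)]
      by_cases hr : |r| ≤ (2 ^ j)⁻¹
      · exact mul_le_mul_of_nonneg_left (coarse_le h b hm0 t hj x y r hr) (tj_nonneg _ _)
      · rw [tj_zero j (not_le.1 hr).le]; simp
    rwa [integral_mul_const, integral_tj, one_mul] at h2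
  have e4 := whole_le (continuous_FD h b t (a := 0) (by omega) le_rfl y) j x
  have e5 := fine_le h b hm0 t j x y
  have e6 : F1 = (∫ r, tj j r * (F1 - FD K ψ 0 v g E (j + 1) (x - r) y)) +
      (∫ r, tj j r * FD K ψ 0 v g E n (x - r) y) -
      ∑ i ∈ Finset.Ico (j + 1) n, ∫ r, tj j r * S K ψ 0 i v ((E i).indicator g) (x - r) y := by
    rw [← e2, e1]; ring
  rw [e6]
  have e7 : ∀ a b c : ℝ, |a + b - c| ≤ |a| + |b| + |c| := fun a b c =>
    (abs_sub _ _).trans (by gcongr; exact abs_add_le _ _)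
  refine (e7 _ _ _).trans ?_
  linarith

end

end Vale.Agent.P112.H964
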