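import Vale.Agent.P112.T.DefsN
import Vale.Agent.P112.H522.T4bN

/-!
# P112, chapter (T): `L` integrations by parts against a tree sum (version of `StN4b`)
-/

open MeasureTheory Set Filter
open scoped ENNReal NNReal Topology ContDiff

namespace Vale.Agent.P112.H964

open Vale.Agent.P112.T
open Vale.Agent.P112.H522 (CD CD_nonneg DD_boundN DD leib kap pq FF FF_cont FF_deriv DD_zero avs
  avs_meas avs_fin avs_sub Av_eq Av_le Av_meas box kr ibp_pair_c nice_integrable)

/-- Version of `StN4b` with `L` integrations by parts. -/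
def StN4bL (M L : ℕ) (A C0 : ℝ) : Prop := ∃ C B : ℝ, 0 < C ∧ 1 ≤ B ∧
  ∀ (N : ℝ) (κ : Ker M), κ.Bd N C0 →
  ∀ (u : ℝ × ℝ → ℝ), Field u → ∀ (n : ℕ) (E : ℕ → Set (ℝ × ℝ)),
    (∀ j, MeasurableSet (E j)) → ∀ s : ℝ,
    (∀ j < n, ∀ z ∈ E j, |u z - s| ≤ A * 2 ^ j / N) →
    ∀ g : ℝ × ℝ → ℝ, Nice g → ∀ j < n, ∀ m ≤ j + 1, ∀ (v : ℝ) (z : ℝ × ℝ),
      2 ^ j ≤ N * |v - s| →
      |∫ ζ, κ.k j v z ζ * κ.FS u g E m ζ| ≤
        C * (2 ^ j / (N * |v - s|)) ^ L * Av v 2 j (fun ζ => |κ.FS u g E m ζ| +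
          ∑ i ∈ Finset.range m,
            2 ^ i / 2 ^ j * Av s B i ((E i).indicator fun z => |g z|) ζ) z

theorem stN4bL (M L : ℕ) (A C0 : ℝ) (hM : L ≤ M) (hA1 : 1 ≤ A) : StN4bL M L A C0 := by
  have hA : 0 ≤ A := by linarith
  have hCa0 : ∀ a, 0 ≤ CD a A |C0| := fun a => CD_nonneg a hA (abs_nonneg _)
  set CG : ℝ := 1 + ∑ a ∈ Finset.range (L + 1), CD a A |C0| with hCG
  have hCG1 : 1 ≤ CG := by
    rw [hCG]
    have : 0 ≤ ∑ a ∈ Finset.range (L + 1), CD a A |C0| := Finset.sum_nonneg fun a _ => hCa0 a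
    linarith
  have hCGa : ∀ a ≤ L, CD a A |C0| ≤ CG := by
    intro a ha
    have h1 : CD a A |C0| ≤ ∑ a ∈ Finset.range (L + 1), CD a A |C0| :=
      Finset.single_le_sum (f := fun a => CD a A |C0|) (fun a _ => hCa0 a)
        (Finset.mem_range.2 (by omega))
    rw [hCG]
    linarith
  set CL : ℝ := |C0| * ∑ ij ∈ Finset.HasAntidiagonal.antidiagonal L,
    (L.choose ij.1 : ℝ) * |C0| with hCL
  have hCL0 : 0 ≤ CL := mul_nonneg (abs_nonneg _) (Finset.sum_nonneg fun ij _ =>
    mul_nonneg (Nat.cast_nonneg _) (abs_nonneg _))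
  refine ⟨(CL + 1) * CG, 1 + A, by positivity, by linarith, ?_⟩
  intro N κ hB
  have hN1 := hB.one_le
  have hN : 0 < N := by linarith
  have hC00 : C0 ≤ |C0| := le_abs_self _
  have hKs : ∀ t, 1 / 8 < |t| → κ.K t = 0 := fun t ht => κ.suppK t ht.le
  have hΦs : ∀ t, 1 < |t| → κ.Φ t = 0 := fun t ht => κ.suppΦ t ht.le
  -- the `L` times integrated band function
  set P : ℝ → ℝ := iteratedDeriv (M - L) κ.Φ with hP
  have hPc : ContDiff ℝ ∞ P := by
    rw [hP, iteratedDeriv_eq_iterate]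
    exact κ.smoothΦ.iterate_deriv _
  have hPs : ∀ t, 1 < |t| → P t = 0 := fun t ht => H522.iter_zero hΦs _ ht
  have hPM : iteratedDeriv L P = κ.psi := by
    rw [hP, Ker.psi, iteratedDeriv_eq_iterate, iteratedDeriv_eq_iterate, iteratedDeriv_eq_iterate,
      ← Function.iterate_add_apply]
    congr 2
    omega
  have hψc : ContDiff ℝ ∞ κ.psi := by
    rw [← hPM, iteratedDeriv_eq_iterate]
    exact hPc.iterate_deriv _
  have hψs : ∀ t, 1 < |t| → κ.psi t = 0 := fun t ht => H522.iter_zero hΦs _ ht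
  have hKb : ∀ b ≤ L, ∀ t, |iteratedDeriv b κ.K t| ≤ |C0| := fun b hb t =>
    (hB.K_bd b (by omega) t).trans hC00
  have hψb : ∀ b ≤ L, ∀ t, |iteratedDeriv b κ.psi t| ≤ |C0| * N ^ b := by
    intro b hb t
    have h1 : iteratedDeriv b κ.psi = iteratedDeriv (M + b) κ.Φ := by
      rw [Ker.psi, iteratedDeriv_eq_iterate, iteratedDeriv_eq_iterate, iteratedDeriv_eq_iterate,
        ← Function.iterate_add_apply, add_comm]
    rw [h1]
    refine (hB.Φ_bd (M + b) (by omega) t).trans ?_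
    rw [pow_add]
    have h2 : N ^ M ≠ 0 := by positivity
    have h3 : C0 * (N ^ M * N ^ b) / N ^ M = C0 * N ^ b := by field_simp
    rw [h3]
    exact mul_le_mul_of_nonneg_right hC00 (by positivity)
  have hPb : ∀ t, |P t| ≤ |C0| / N ^ L := by
    intro t
    refine (hB.Φ_bd (M - L) (by omega) t).trans ?_
    have h2 : N ^ M = N ^ (M - L) * N ^ L := by rw [← pow_add]; congr 1; omega
    rw [h2]
    have h3 : N ^ (M - L) ≠ 0 := by positivity
    have h4 : C0 * N ^ (M - L) / (N ^ (M - L) * N ^ L) = C0 / N ^ L := by field_simp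
    rw [h4]
    gcongr
  have hCD : ∀ a ≤ L, ∀ (i : ℕ) (w s : ℝ) (z : ℝ × ℝ), |w - s| ≤ A * 2 ^ i / N → ∀ p : ℝ × ℝ,
      |DD κ.K κ.psi i w s z a p| ≤ CD a A |C0| * 2 ^ i * 2 ^ (i * a) := fun a ha i w s z hw p =>
    DD_boundN hA (abs_nonneg _) hN a (fun b hb => hKb b (by omega))
      (fun b hb => hψb b (by omega)) i w s z hw p
  intro u hu n E hE s hs g hg j hj m hm v z hv
  have hsN : ∀ i < m, ∀ z ∈ E i, |u z - s| ≤ A * 2 ^ i / N := fun i hi => hs i (by omega)
  have hs' : ∀ i < m, ∀ z ∈ E i, |u z - s| ≤ A * 2 ^ i := fun i hi z hz =>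
    (hsN i hi z hz).trans (div_le_self (by positivity) hN1)
  have hvs : v ≠ s := by
    intro h
    rw [h, sub_self, abs_zero, mul_zero] at hv
    have : (0:ℝ) < 2 ^ j := by positivity
    linarith
  -- absolute values of `g` on the pieces
  have hga : ∀ i, Integrable ((E i).indicator fun z => |g z|) := fun i =>
    (nice_integrable hg).abs.indicator (hE i)
  have hgm : ∀ i, Measurable ((E i).indicator fun z => |g z|) := fun i =>
    (continuous_abs.measurable.comp hg.meas).indicator (hE i)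
  have hg0 : ∀ i z, 0 ≤ (E i).indicator (fun z => |g z|) z := fun i z =>
    indicator_nonneg (fun z _ => abs_nonneg _) z
  set H : ℝ × ℝ → ℝ := fun ζ => ∑ i ∈ Finset.range m,
    2 ^ i / 2 ^ j * Av s (1 + A) i ((E i).indicator fun z => |g z|) ζ with hH
  have hH0 : ∀ ζ, 0 ≤ H ζ := fun ζ => Finset.sum_nonneg fun i _ =>
    mul_nonneg (by positivity) (H522.Av_nonneg _ _ _ (hg0 i) ζ)
  have hHm : Measurable H := by
    rw [hH]
    refine Finset.measurable_sum _ fun i _ => ?_
    exact (Av_meas s (1 + A) i (hgm i)).const_mul _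
  set F : ℕ → ℝ × ℝ → ℝ := FF κ.K κ.psi u g E s m with hF
  have hF0 : ∀ ζ : ℝ × ℝ, F 0 (ζ.1, ζ.2 - s * ζ.1) = κ.FS u g E m ζ := by
    intro ζ
    rw [hF]
    unfold FF Ker.FS Ker.S
    refine Finset.sum_congr rfl fun i _ => ?_
    refine integral_congr_ae (Filter.Eventually.of_forall fun z => ?_)
    simp only [DD, leib, kap, pq, Ker.k]
    simp
  have hF0' : ∀ x Y : ℝ, F 0 (x, Y) = κ.FS u g E m (x, Y + s * x) := by
    intro x Y
    rw [← hF0]
    simp
  have hFc : ∀ a, Continuous (F a) := fun a => FF_cont κ.smoothK hKs hψc hψs hu.meas hg hE hA hs' a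
  have hFSc : Continuous (κ.FS u g E m) := by
    rw [show κ.FS u g E m = fun ζ => F 0 (ζ.1, ζ.2 - s * ζ.1) from (funext hF0).symm]
    exact (hFc 0).comp (by fun_prop)
  -- the pointwise bounds of the derivatives
  have hder : ∀ a : ℕ, 1 ≤ a → ∀ Ca : ℝ, 0 ≤ Ca → (∀ (i : ℕ) (w s : ℝ) (z : ℝ × ℝ),
      |w - s| ≤ A * 2 ^ i / N → ∀ p : ℝ × ℝ,
      |DD κ.K κ.psi i w s z a p| ≤ Ca * 2 ^ i * 2 ^ (i * a)) → ∀ x Y : ℝ,
      |F a (x, Y)| ≤ 2 ^ (j * a) * (Ca * H (x, Y + s * x)) := by
    intro a ha Ca hCa0 hCa x Y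
    rw [hF]
    unfold FF
    rw [hH]
    simp only
    rw [Finset.mul_sum, Finset.mul_sum]
    refine (Finset.abs_sum_le_sum_abs _ _).trans (Finset.sum_le_sum fun i hi => ?_)
    have him : i < m := Finset.mem_range.1 hi
    have hij : i ≤ j := by omega
    -- pointwise bound of the integrand
    have hpt : ∀ z, |DD κ.K κ.psi i (u z) s z a (x, Y) * (E i).indicator g z| ≤
        (avs s (1 + A) i (x, Y + s * x)).indicator
          (fun z => Ca * 2 ^ i * 2 ^ (i * a) * (E i).indicator (fun z => |g z|) z) z := by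
      intro z
      by_cases hz : z ∈ E i
      · have hw := hs' i him z hz
        by_cases hb : 2 ^ i * |z.1 - x| ≤ 1 / 8 ∧ |z.2 - (Y + s * x) - (z.1 - x) * u z| ≤ 1
        · have hin : z ∈ avs s (1 + A) i (x, Y + s * x) := by
            have h0 : (0:ℝ) < 2 ^ i := by positivity
            refine ⟨?_, ?_⟩
            · simp only
              rw [le_div_iff₀ h0]
              nlinarith [hb.1]
            · simp only
              have h1 : z.2 - s * z.1 - (Y + s * x - s * x) =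
                  (z.2 - (Y + s * x) - (z.1 - x) * u z) + (z.1 - x) * (u z - s) := by ring
              rw [h1]
              have h2 : |(z.1 - x) * (u z - s)| ≤ A := by
                rw [abs_mul]
                have h3 : |z.1 - x| * |u z - s| ≤ |z.1 - x| * (A * 2 ^ i) :=
                  mul_le_mul_of_nonneg_left hw (abs_nonneg _)
                have h4 : |z.1 - x| * (A * 2 ^ i) = A * (2 ^ i * |z.1 - x|) := by ring
                have h5 : A * (2 ^ i * |z.1 - x|) ≤ A * 1 :=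
                  mul_le_mul_of_nonneg_left (by linarith [hb.1]) hA
                linarith
              exact (abs_add_le _ _).trans (by linarith [hb.2])
          rw [indicator_of_mem hin, indicator_of_mem hz, indicator_of_mem hz, abs_mul]
          exact mul_le_mul_of_nonneg_right (hCa i (u z) s z (hsN i him z hz) (x, Y)) (abs_nonneg _)
        · rw [DD_zero hKs hψs i (u z) s z a hb, zero_mul, abs_zero]
          exact indicator_nonneg (fun z _ => mul_nonneg (by positivity) (hg0 i z)) z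
      · rw [indicator_of_notMem hz, mul_zero, abs_zero]
        exact indicator_nonneg (fun z _ => mul_nonneg (by positivity) (hg0 i z)) z
    have hint : |∫ z, DD κ.K κ.psi i (u z) s z a (x, Y) * (E i).indicator g z| ≤
        Ca * 2 ^ (i * a) * Av s (1 + A) i ((E i).indicator fun z => |g z|) (x, Y + s * x) := by
      refine (abs_integral_le_integral_abs).trans ?_
      have h1 := integral_mono_of_nonneg (μ := (volume : Measure (ℝ × ℝ)))
        (Filter.Eventually.of_forall fun z => abs_nonneg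
          (DD κ.K κ.psi i (u z) s z a (x, Y) * (E i).indicator g z))
        (((hga i).const_mul (Ca * 2 ^ i * 2 ^ (i * a))).indicator
          (avs_meas s (1 + A) i (x, Y + s * x))) (Filter.Eventually.of_forall hpt)
      refine h1.trans (le_of_eq ?_)
      rw [integral_indicator (avs_meas s (1 + A) i (x, Y + s * x)), integral_const_mul, Av_eq]
      ring
    refine hint.trans ?_
    have hAv := H522.Av_nonneg s (1 + A) i (hg0 i) (x, Y + s * x)
    have hpow : (2:ℝ) ^ (i * a) ≤ 2 ^ (j * a) * (2 ^ i / 2 ^ j) := by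
      have h0 : (0:ℝ) < 2 ^ j := by positivity
      rw [mul_div_assoc', le_div_iff₀ h0, ← pow_add, ← pow_add]
      apply pow_le_pow_right₀ (by norm_num)
      obtain ⟨b, rfl⟩ : ∃ b, a = b + 1 := ⟨a - 1, by omega⟩
      nlinarith [Nat.mul_le_mul_right b hij]
    calc Ca * 2 ^ (i * a) * Av s (1 + A) i ((E i).indicator fun z => |g z|) (x, Y + s * x)
        ≤ Ca * (2 ^ (j * a) * (2 ^ i / 2 ^ j)) *
          Av s (1 + A) i ((E i).indicator fun z => |g z|) (x, Y + s * x) := by gcongr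
      _ = _ := by ring
  -- the majorant
  set G : ℝ × ℝ → ℝ≥0∞ := fun ζ => ENNReal.ofReal (CG * (|κ.FS u g E m ζ| + H ζ)) with hG
  have hGm : Measurable G := by
    rw [hG]
    have h1 := hFSc.measurable
    fun_prop
  have hFG : ∀ a ≤ L, ∀ x Y, ‖F a (x, Y)‖ₑ ≤
      ENNReal.ofReal (2 ^ (j * a)) * G (x, Y + s * x) := by
    intro a ha x Y
    rw [hG]
    simp only
    rw [← ENNReal.ofReal_mul (by positivity), ← ofReal_norm, Real.norm_eq_abs]
    apply ENNReal.ofReal_le_ofReal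
    have hHn := hH0 (x, Y + s * x)
    have hFn := abs_nonneg (κ.FS u g E m (x, Y + s * x))
    have hpp : (0:ℝ) ≤ 2 ^ (j * a) := by positivity
    rcases Nat.eq_zero_or_pos a with ha0 | ha0
    · subst ha0
      rw [hF0']
      simp only [Nat.mul_zero, pow_zero, one_mul]
      nlinarith
    · refine (hder a ha0 (CD a A |C0|) (hCa0 a) (hCD a ha) x Y).trans ?_
      refine mul_le_mul_of_nonneg_left ?_ hpp
      have h5 := mul_le_mul_of_nonneg_right (hCGa a ha) hHn
      nlinarith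
  have hmain := ibp_pair_c L κ.smoothK hKs hPc hPs (CK := fun _ => |C0|) (fun _ => abs_nonneg _)
    (fun a ha => hKb a ha) (Cψ := |C0| / N ^ L) (by positivity) hPb j z v s hvs F (fun a _ => hFc a)
    (fun a _ x Y => FF_deriv κ.smoothK hKs hψc hψs hu.meas hg hE hA hs' a x Y) G hGm hFG
  have hCLe : |C0| / N ^ L * (∑ ij ∈ Finset.HasAntidiagonal.antidiagonal L,
      (L.choose ij.1 : ℝ) * |C0|) * (2 ^ j / |v - s|) ^ L * 2 ^ j =
      CL * (2 ^ j / (N * |v - s|)) ^ L * 2 ^ j := by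
    have e1 : (2 ^ j / (N * |v - s|)) ^ L = (2 ^ j / |v - s|) ^ L / N ^ L := by
      rw [← div_pow]
      congr 1
      field_simp
    rw [e1, hCL]
    ring
  rw [hCLe] at hmain
  -- translate
  have hL : ∫ ζ, kr κ.K (iteratedDeriv L P) j v z ζ * F 0 (ζ.1, ζ.2 - s * ζ.1) =
      ∫ ζ, κ.k j v z ζ * κ.FS u g E m ζ := by
    refine integral_congr_ae (Filter.Eventually.of_forall fun ζ => ?_)
    simp only
    rw [hF0, hPM]
    rfl
  rw [hL] at hmain
  -- the right-hand side
  set R : ℝ × ℝ → ℝ := fun ζ => |κ.FS u g E m ζ| + H ζ with hR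
  have hR0 : ∀ ζ, 0 ≤ R ζ := fun ζ => add_nonneg (abs_nonneg _) (hH0 ζ)
  have hRm : Measurable R := by
    rw [hR]
    exact (continuous_abs.measurable.comp hFSc.measurable).add hHm
  have hfinA : volume (avs v 2 j z) < ⊤ := avs_fin v 2 (by norm_num) j z
  have hRi : IntegrableOn R (avs v 2 j z) := by
    have h1 : IntegrableOn (fun ζ => |κ.FS u g E m ζ|) (avs v 2 j z) := by
      have h2 : IntegrableOn (fun ζ => |κ.FS u g E m ζ|)
          (Icc (z.1 - 2) (z.1 + 2) ×ˢ Icc (z.2 - (2 + |v| * 2)) (z.2 + (2 + |v| * 2))) :=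
        (continuous_abs.comp hFSc).continuousOn.integrableOn_compact
          (isCompact_Icc.prod isCompact_Icc)
      exact h2.mono_set (avs_sub v 2 (by norm_num) j z)
    have h3 : IntegrableOn H (avs v 2 j z) := by
      apply Measure.integrableOn_of_bounded
        (M := ∑ i ∈ Finset.range m, 2 ^ i / 2 ^ j * (2 ^ i * ∫ z, (E i).indicator
          (fun z => |g z|) z)) hfinA.ne hHm.aestronglyMeasurable
      filter_upwards with ζ
      rw [Real.norm_eq_abs, abs_of_nonneg (hH0 ζ)]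
      exact Finset.sum_le_sum fun i _ => mul_le_mul_of_nonneg_left
        (Av_le s (1 + A) i (hga i) (hg0 i) ζ) (by positivity)
    exact h1.add h3
  have hsub : box j v z ⊆ avs v 2 j z := by
    rintro ζ ⟨h1, h2⟩
    have h0 : (0:ℝ) < 2 ^ j := by positivity
    refine ⟨?_, ?_⟩
    · rw [le_div_iff₀ h0, abs_sub_comm]
      nlinarith
    · have h3 : ζ.2 - v * ζ.1 - (z.2 - v * z.1) = -(z.2 - ζ.2 - (z.1 - ζ.1) * v) := by ring
      rw [h3, abs_neg]
      linarith
  have hint : ∫⁻ ζ in box j v z, G ζ ≤ ENNReal.ofReal (CG * ∫ ζ in avs v 2 j z, R ζ) := by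
    rw [← integral_const_mul, ofReal_integral_eq_lintegral_ofReal (hRi.const_mul CG)
      (Filter.Eventually.of_forall fun ζ => mul_nonneg (by linarith) (hR0 ζ))]
    exact lintegral_mono_set hsub
  have hfin := hmain.trans (mul_le_mul_right hint _)
  have hRint : 0 ≤ ∫ ζ in avs v 2 j z, R ζ := integral_nonneg fun ζ => hR0 ζ
  rw [← ENNReal.ofReal_mul (by positivity), ← ofReal_norm, Real.norm_eq_abs,
    ENNReal.ofReal_le_ofReal_iff (by positivity)] at hfin
  rw [Av_eq]
  refine hfin.trans ?_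
  calc CL * (2 ^ j / (N * |v - s|)) ^ L * 2 ^ j * (CG * ∫ ζ in avs v 2 j z, R ζ)
      ≤ (CL + 1) * (2 ^ j / (N * |v - s|)) ^ L * 2 ^ j * (CG * ∫ ζ in avs v 2 j z, R ζ) := by
        gcongr
        linarith
    _ = _ := by ring

end Vale.Agent.P112.H964
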