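import Vale.Agent.P112.H964.ForestL

/-!
# P112, chapter (T), forests with the pair separation condition

`stN4P`: the same bound as `stN4L` for forests whose separation is only known for pairs of points
whose tubes meet. The tops are used for the count only.
-/

open MeasureTheory Set Filter Topology
open scoped ContDiff ENNReal

set_option linter.dupNamespace false
set_option linter.unusedVariables false

namespace Vale.Agent.P112.H964

open Vale.Agent.P112.T

variable {M : ℕ}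

/-- `ζ` lies in the tube of the pair `(z, j)`. -/
def InTube (u : ℝ × ℝ → ℝ) (z : ℝ × ℝ) (j : ℕ) (ζ : ℝ × ℝ) : Prop :=
  |ζ.1 - z.1| ≤ 1 / (8 * 2 ^ j) ∧ |ζ.2 - z.2 - (ζ.1 - z.1) * u z| ≤ 1

/-- A separated forest; the separation is a condition on pairs whose tubes meet. -/
structure ForestP {ι : Type} (N : ℝ) (u : ℝ × ℝ → ℝ) (τ A W Q : ℝ) (n : ℕ) (s c : ι → ℝ)
    (lev : ι → ℕ) (m : ι → ℤ) (E : ι → ℕ → Set (ℝ × ℝ)) : Prop where
  meas : ∀ i j, MeasurableSet (E i j)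
  slope : ∀ i, ∀ j < n, ∀ z ∈ E i j, |u z - s i| ≤ A * 2 ^ j / N
  scale : ∀ i, ∀ j < n, ∀ z ∈ E i j, lev i ≤ j
  line : ∀ i, ∀ j < n, ∀ z ∈ E i j, |z.2 - c i - s i * z.1| ≤ W
  cell : ∀ i, ∀ j < n, ∀ z ∈ E i j, q τ (lev i) z.1 = m i
  conv : ∀ i, ∀ z, ∀ j k l : ℕ, j ≤ k → k ≤ l → l < n → z ∈ E i j → z ∈ E i l → z ∈ E i k
  disj : ∀ i i', i ≠ i' → ∀ j, Disjoint (E i j) (E i' j)
  sep : ∀ i i', i ≠ i' → ∀ j < n, ∀ z ∈ E i j, ∀ j' ≤ j, ∀ z' ∈ E i' j', ∀ ζ,
    InTube u z j ζ → InTube u z' j' ζ → Q * 2 ^ j / N ≤ |u z - s i'|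

/-- T4 with `L` integrations by parts and the pair separation. -/
def StN4P (M L : ℕ) (A C0 : ℝ) : Prop := ∃ C : ℝ, 0 < C ∧ ∀ (N : ℝ) (κ : Ker M), κ.Bd N C0 →
  ∀ (τ : ℝ) (u : ℝ × ℝ → ℝ), Field u → ∀ (n : ℕ) (ι : Type) [Fintype ι] (s c : ι → ℝ)
    (lev : ι → ℕ) (m : ι → ℤ) (E : ι → ℕ → Set (ℝ × ℝ)) (W Q : ℝ), 1 ≤ W →
    1 ≤ Q → ForestP N u τ A W Q n s c lev m E →
    ∀ g : ℝ × ℝ → ℝ, Nice g → (∀ z, |g z| ≤ 1) →
      ∫ ζ, (∑ i, κ.FS u g (E i) n ζ) ^ 2 ≤
        (∑ i, ∫ ζ, (κ.FS u g (E i) n ζ) ^ 2) +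
        C * W / (√Q * Q ^ (L - 2)) * √(∑ i, (1 / 2 : ℝ) ^ lev i) *
          √(∑ i, ∫ z in Un (E i) n, g z ^ 2)

/-- Points of `E i j` whose tube meets a tube of the tree `i'` that is at least as long. -/
def PSP {ι : Type} (u : ℝ × ℝ → ℝ) (E : ι → ℕ → Set (ℝ × ℝ)) (i' i : ι) (j : ℕ) :
    Set (ℝ × ℝ) :=
  {z | z ∈ E i j ∧ ∃ j' ≤ j, ∃ z' ∈ E i' j', ∃ ζ, InTube u z j ζ ∧ InTube u z' j' ζ}

section

variable {ι : Type} {N τ A W Q C0 : ℝ} {n : ℕ} {s c : ι → ℝ} {lev : ι → ℕ}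
  {m : ι → ℤ} {E : ι → ℕ → Set (ℝ × ℝ)} {u : ℝ × ℝ → ℝ}

theorem FS_eq_zeroP (κ : Ker M) (hF : ForestP N u τ A W Q n s c lev m E) (g : ℝ × ℝ → ℝ) (i : ι)
    {k : ℕ} (hk : k ≤ lev i) (hkn : k ≤ n) (ζ : ℝ × ℝ) : κ.FS u g (E i) k ζ = 0 := by
  unfold Ker.FS
  apply Finset.sum_eq_zero
  intro j hj
  have hjk := Finset.mem_range.1 hj
  have he : E i j = ∅ := by
    ext z
    simp only [mem_empty_iff_false, iff_false]
    intro hz
    have := hF.scale i j (by omega) z hz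
    omega
  simp [Ker.S, he]

theorem FS_ne_zero (κ : Ker M) (E : ℕ → Set (ℝ × ℝ)) (g : ℝ × ℝ → ℝ)
    {k : ℕ} {ζ : ℝ × ℝ} (h : κ.FS u g E k ζ ≠ 0) :
    ∃ j < k, ∃ z ∈ E j, InTube u z j ζ := by
  unfold Ker.FS at h
  obtain ⟨j, hj, hne⟩ := Finset.exists_ne_zero_of_sum_ne_zero h
  unfold Ker.S at hne
  have : ∃ z, κ.k j (u z) z ζ * (E j).indicator g z ≠ 0 := by
    by_contra hc
    push Not at hc
    exact hne (by simp [hc])
  obtain ⟨z, hz⟩ := this
  have hk0 := left_ne_zero_of_mul hz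
  have hzE : z ∈ E j := by
    by_contra hc
    exact (right_ne_zero_of_mul hz) (indicator_of_notMem hc _)
  obtain ⟨hx, hy⟩ := κ.k_supp hk0
  refine ⟨j, Finset.mem_range.1 hj, z, hzE, by rw [abs_sub_comm]; exact hx, ?_⟩
  have : ζ.2 - z.2 - (ζ.1 - z.1) * u z = -(z.2 - ζ.2 - (z.1 - ζ.1) * u z) := by ring
  rw [this, abs_neg]
  exact hy

/-- The pairing of the kernel with another tree vanishes off `PSP`. -/
theorem pair_eq_zeroP (κ : Ker M) (g : ℝ × ℝ → ℝ) (i i' : ι) {j k : ℕ} (hkj : k ≤ j + 1)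
    {z : ℝ × ℝ} (hz : z ∈ E i j) (hP : z ∉ PSP u E i' i j) :
    ∫ ζ, κ.k j (u z) z ζ * κ.FS u g (E i') k ζ = 0 := by
  rw [integral_eq_zero_of_ae]
  refine Eventually.of_forall fun ζ => ?_
  by_contra hne
  have hk0 := left_ne_zero_of_mul hne
  have hf0 := right_ne_zero_of_mul hne
  obtain ⟨j', hj', z', hz', ht⟩ := FS_ne_zero κ (E i') g hf0
  obtain ⟨hx, hy⟩ := κ.k_supp hk0
  apply hP
  refine ⟨hz, j', by omega, z', hz', ζ, ⟨by rw [abs_sub_comm]; exact hx, ?_⟩, ht⟩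
  have : ζ.2 - z.2 - (ζ.1 - z.1) * u z = -(z.2 - ζ.2 - (z.1 - ζ.1) * u z) := by ring
  rw [this, abs_neg]
  exact hy

/-- Geometry of `PSP`. -/
theorem PSP_loc (hN : 1 ≤ N) (hA : 1 ≤ A) (hW : 1 ≤ W)
    (hF : ForestP N u τ A W Q n s c lev m E) {i i' : ι} {j : ℕ} (hj : j < n) {z : ℝ × ℝ}
    (hz : z ∈ PSP u E i' i j) : lev i' ≤ j ∧
      z.1 ∈ Icc (τ + (m i' - 1) / 2 ^ lev i') (τ + (m i' + 2) / 2 ^ lev i') ∧
      |z.2 - (c i' + s i' * z.1)| ≤ (W + A + 1 + 1) * (1 + |u z - s i'| / 2 ^ j) := by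
  obtain ⟨hzE, j', hj', z', hz', ζ, h1, h2⟩ := hz
  have hj'n : j' < n := by omega
  have hlev := hF.scale i' j' hj'n z' hz'
  have hcell := hF.cell i' j' hj'n z' hz'
  have hline := hF.line i' j' hj'n z' hz'
  have hslope := hF.slope i' j' hj'n z' hz'
  have p2 : (0 : ℝ) < 2 ^ lev i' := by positivity
  have p2j : (0 : ℝ) < 2 ^ j := by positivity
  have p2j' : (0 : ℝ) < 2 ^ j' := by positivity
  have hle' : (2 : ℝ) ^ lev i' ≤ 2 ^ j' := pow_le_pow_right₀ (by norm_num) hlev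
  have hle : (2 : ℝ) ^ lev i' ≤ 2 ^ j := pow_le_pow_right₀ (by norm_num) (hlev.trans hj')
  have hq' := Int.floor_eq_iff.1 hcell
  have h3 : (m i' : ℝ) / 2 ^ lev i' ≤ z'.1 - τ := by
    rw [div_le_iff₀ p2]; linarith [hq'.1, mul_comm ((2 : ℝ) ^ lev i') (z'.1 - τ)]
  have h4 : z'.1 - τ ≤ (m i' + 1) / 2 ^ lev i' := by
    rw [le_div_iff₀ p2]; linarith [hq'.2, mul_comm ((2 : ℝ) ^ lev i') (z'.1 - τ)]
  have h5 : 1 / (8 * 2 ^ j) ≤ 1 / 2 * (1 / (2 : ℝ) ^ lev i') := by
    rw [← one_div_mul_one_div]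
    have := one_div_le_one_div_of_le p2 hle
    have h9 : 0 < 1 / (2 : ℝ) ^ j := by positivity
    linarith
  have h5' : 1 / (8 * 2 ^ j') ≤ 1 / 2 * (1 / (2 : ℝ) ^ lev i') := by
    rw [← one_div_mul_one_div]
    have := one_div_le_one_div_of_le p2 hle'
    have h9 : 0 < 1 / (2 : ℝ) ^ j' := by positivity
    linarith
  have h6 := abs_le.1 h1.1
  have h7 := abs_le.1 h2.1
  refine ⟨hlev.trans hj', ⟨?_, ?_⟩, ?_⟩
  · have : (m i' - 1 : ℝ) / 2 ^ lev i' = m i' / 2 ^ lev i' - 1 / 2 ^ lev i' := by ring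
    linarith [h6.2, h7.1]
  · have : (m i' + 2 : ℝ) / 2 ^ lev i' = (m i' + 1) / 2 ^ lev i' + 1 / 2 ^ lev i' := by ring
    linarith [h6.1, h7.2]
  · have e : z.2 - (c i' + s i' * z.1) = (z'.2 - c i' - s i' * z'.1) +
        (-(ζ.2 - z.2 - (ζ.1 - z.1) * u z) + ((ζ.2 - z'.2 - (ζ.1 - z'.1) * u z') +
          (-((ζ.1 - z.1) * (u z - s i')) + (ζ.1 - z'.1) * (u z' - s i')))) := by ring
    have h8 : |(ζ.1 - z.1) * (u z - s i')| ≤ |u z - s i'| / 2 ^ j := by
      rw [abs_mul, div_eq_inv_mul]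
      gcongr
      refine h1.1.trans ?_
      rw [one_div]
      apply inv_anti₀ p2j
      linarith
    have h9 : |(ζ.1 - z'.1) * (u z' - s i')| ≤ A := by
      rw [abs_mul]
      calc |ζ.1 - z'.1| * |u z' - s i'| ≤ 1 / (8 * 2 ^ j') * (A * 2 ^ j' / N) := by
            gcongr
            exact h2.1
        _ = A / 8 / N := by field_simp
        _ ≤ A / 8 := div_le_self (by positivity) hN
        _ ≤ A := by linarith
    have h10 : 0 ≤ |u z - s i'| / 2 ^ j := by positivity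
    calc |z.2 - (c i' + s i' * z.1)| ≤ |z'.2 - c i' - s i' * z'.1| +
          (|-(ζ.2 - z.2 - (ζ.1 - z.1) * u z)| + (|ζ.2 - z'.2 - (ζ.1 - z'.1) * u z'| +
          (|-((ζ.1 - z.1) * (u z - s i'))| + |(ζ.1 - z'.1) * (u z' - s i')|))) := by
          rw [e]
          refine (abs_add_le _ _).trans (add_le_add le_rfl ?_)
          refine (abs_add_le _ _).trans (add_le_add le_rfl ?_)
          refine (abs_add_le _ _).trans (add_le_add le_rfl ?_)
          exact abs_add_le _ _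
      _ ≤ W + (1 + (1 + (|u z - s i'| / 2 ^ j + A))) := by
          rw [abs_neg, abs_neg]
          have := h1.2
          have := h2.2
          gcongr
      _ ≤ _ := by nlinarith

/-- (ii) for the pair separation. -/
theorem forestP_enn [Fintype ι] [DecidableEq ι] (hN : 1 ≤ N) (hA : 1 ≤ A) (hW : 1 ≤ W)
    (hu : Field u) (hF : ForestP N u τ A W Q n s c lev m E) (hQ : 1 ≤ Q)
    (i' : ι) {G : ℝ × ℝ → ℝ≥0∞} (hG : Measurable G) :
    ∑ i ∈ Finset.univ.erase i', ∑ j ∈ (Finset.range n).filter (fun j => lev i' ≤ j),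
      ∫⁻ z in PSP u E i' i j, wt N u (s i') j G z ≤
      H526.CFor (W + A + 1) 2 2 * ENNReal.ofReal (1 / √Q * √((1 / 2 : ℝ) ^ lev i')) *
        (∫⁻ z, G z ^ (2 : ℝ)) ^ (1 / 2 : ℝ) := by
  set ρ : ℝ × ℝ → ℝ := fun z => N * |u z - s i'| with hρ
  have hρ1 : ∀ z, |u z - s i'| ≤ ρ z := fun z => by
    have := abs_nonneg (u z - s i')
    simp only [hρ]
    nlinarith
  set B : ℝ := W + A + 1 with hB
  have hB0 : 0 ≤ B := by linarith
  set J : Set ℝ := Icc (τ + (m i' - 1) / 2 ^ lev i') (τ + (m i' + 2) / 2 ^ lev i') with hJ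
  set D : ℕ → Set (ℝ × ℝ) := fun j => {z | Q ≤ ρ z / 2 ^ j ∧ z.1 ∈ J ∧
    |z.2 - (c i' + s i' * z.1)| ≤ (B + 1) * (1 + ρ z / 2 ^ j)} with hD
  have hum := hu.meas
  have hρm : Measurable ρ := by
    simp only [hρ]
    fun_prop
  have hJm : MeasurableSet J := measurableSet_Icc
  have hDm : ∀ j, MeasurableSet (D j) := by
    intro j
    have h1 : Measurable fun z : ℝ × ℝ => ρ z / 2 ^ j := by fun_prop
    have h2 : Measurable fun z : ℝ × ℝ => |z.2 - (c i' + s i' * z.1)| := by fun_prop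
    have h3 : Measurable fun z : ℝ × ℝ => (B + 1) * (1 + ρ z / 2 ^ j) := by fun_prop
    exact (measurableSet_le measurable_const h1).inter
      ((measurable_fst hJm).inter (measurableSet_le h2 h3))
  have hPD : ∀ i, i ≠ i' → ∀ j < n, PSP u E i' i j ⊆ E i j ∩ D j := by
    intro i hi j hj z hz
    have hloc := PSP_loc hN hA hW hF hj hz
    obtain ⟨hzE, j', hj', z', hz', ζ, k1, k2⟩ := hz
    refine ⟨hzE, ?_, hloc.2.1, hloc.2.2.trans ?_⟩
    · have h1 := hF.sep i i' hi j hj z hzE j' hj' z' hz' ζ k1 k2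
      rw [div_le_iff₀ (by linarith)] at h1
      rw [le_div_iff₀ (by positivity)]
      simp only [hρ]
      linarith
    · gcongr
      exact hρ1 z
  have hstep : ∀ j ∈ Finset.range n, ∑ i ∈ Finset.univ.erase i', ∫⁻ z in PSP u E i' i j,
      wt N u (s i') j G z ≤
      ∫⁻ z in D j, ENNReal.ofReal (((ρ z / 2 ^ j) ^ (1 + 1))⁻¹) *
        (ENNReal.ofReal (2 ^ j) * ∫⁻ ζ in H526.Tube z (u z) (2 / 2 ^ j) 2, G ζ) := by
    intro j hj
    have hjn := Finset.mem_range.1 hj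
    have e : ∀ z : ℝ × ℝ, wt N u (s i') j G z = ENNReal.ofReal (((ρ z / 2 ^ j) ^ (1 + 1))⁻¹) *
        (ENNReal.ofReal (2 ^ j) * ∫⁻ ζ in H526.Tube z (u z) (2 / 2 ^ j) 2, G ζ) := by
      intro z
      unfold wt
      rw [H526.Tu_eq, ← inv_pow, inv_div]
    simp only [e]
    calc _ ≤ ∑ i ∈ Finset.univ.erase i', ∫⁻ z in E i j ∩ D j,
          ENNReal.ofReal (((ρ z / 2 ^ j) ^ (1 + 1))⁻¹) *
          (ENNReal.ofReal (2 ^ j) * ∫⁻ ζ in H526.Tube z (u z) (2 / 2 ^ j) 2, G ζ) :=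
          Finset.sum_le_sum fun i hi =>
            lintegral_mono_set (hPD i (Finset.ne_of_mem_erase hi) j hjn)
      _ = ∫⁻ z in ⋃ i ∈ Finset.univ.erase i', E i j ∩ D j,
          ENNReal.ofReal (((ρ z / 2 ^ j) ^ (1 + 1))⁻¹) *
          (ENNReal.ofReal (2 ^ j) * ∫⁻ ζ in H526.Tube z (u z) (2 / 2 ^ j) 2, G ζ) := by
          rw [lintegral_biUnion_finset]
          · intro i _ k _ hik
            exact (hF.disj i k hik j).mono inter_subset_left inter_subset_left
          · intro i _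
            exact (hF.meas i j).inter (hDm j)
      _ ≤ _ := by
          refine lintegral_mono_set ?_
          refine iUnion₂_subset fun i _ => inter_subset_right
  have hswap : ∑ i ∈ Finset.univ.erase i', ∑ j ∈ (Finset.range n).filter (fun j => lev i' ≤ j),
      ∫⁻ z in PSP u E i' i j, wt N u (s i') j G z ≤
      ∑ j ∈ Finset.range n, ∑ i ∈ Finset.univ.erase i', ∫⁻ z in PSP u E i' i j,
        wt N u (s i') j G z := by
    rw [Finset.sum_comm (s := Finset.range n)]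
    refine Finset.sum_le_sum fun i _ => ?_
    exact Finset.sum_le_sum_of_subset_of_nonneg (Finset.filter_subset _ _) fun _ _ _ => zero_le
  refine hswap.trans ((Finset.sum_le_sum hstep).trans ?_)
  have hmain := H526.t4ii_rho n (s i') u D (A' := B + 1) (a := 2) (L := 2) (Q := Q) J (c i') ρ
    hρm hρ1 (fun j _ => hDm j) (by linarith) (by norm_num) (by norm_num) hQ
    (fun j _ z hz => hz.1) hJm (fun j _ z hz => hz.2) (m := 1) le_rfl hG
  refine hmain.trans (le_of_eq ?_)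
  have hQ0 : 0 < Q := by linarith
  have h2 : (0 : ℝ) < 2 ^ lev i' := by positivity
  have hvol : volume J = ENNReal.ofReal (3 / 2 ^ lev i') := by
    rw [hJ, Real.volume_Icc]
    congr 1
    ring
  rw [hvol, H526.CFor]
  have e1 : ENNReal.ofReal (Real.pi * Q * ((Q ^ 1)⁻¹) ^ 2) * ENNReal.ofReal (3 / 2 ^ lev i') =
      ENNReal.ofReal (3 * Real.pi) * ENNReal.ofReal ((1 / √Q * √((1 / 2 : ℝ) ^ lev i')) ^ 2) := by
    rw [← ENNReal.ofReal_mul (by positivity), ← ENNReal.ofReal_mul (by positivity)]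
    congr 1
    rw [mul_pow, div_pow, Real.sq_sqrt hQ0.le, Real.sq_sqrt (by positivity), one_div_pow]
    field_simp
  rw [e1, ENNReal.mul_rpow_of_nonneg _ _ (by norm_num : (0 : ℝ) ≤ 1 / 2),
    ENNReal.mul_rpow_of_nonneg _ _ (by norm_num : (0 : ℝ) ≤ 1 / 2),
    ENNReal.ofReal_rpow_of_nonneg (p := 1 / 2) (sq_nonneg (1 / √Q * √((1 / 2 : ℝ) ^ lev i')))
      (by norm_num), ← Real.sqrt_eq_rpow, Real.sqrt_sq (by positivity)]
  simp only [pow_one]
  ring

/-- Pointwise bound of the pairing of a kernel with another tree. -/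
theorem pair_ptP {κ : Ker M} (hκ : κ.Bd N C0) (hA : 1 ≤ A)
    (hQ : 1 ≤ Q) (hF : ForestP N u τ A W Q n s c lev m E)
    {g : ℝ × ℝ → ℝ} (hg : Nice g) {i i' : ι} (hii : i ≠ i') {Ca Ba Cb Bb : ℝ} (hCa : 0 < Ca)
    (hCb : 0 < Cb)
    (h4a : ∀ j < n, ∀ ζ : ℝ × ℝ,
      |κ.FS u g (E i') (j + 1) ζ| ≤ Ca * (AvL (s i') Ba j (fun z => |κ.FS u g (E i') n z|) ζ +
        Av (s i') Ba j ((Un (E i') n).indicator fun z => |g z|) ζ +
        ∑ i ∈ Finset.range (j + 1),
          2 ^ i / 2 ^ j * Av (s i') Ba i ((E i' i).indicator fun z => |g z|) ζ))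
    (h4b : ∀ j < n, ∀ m ≤ j + 1, ∀ (v : ℝ) (z : ℝ × ℝ), Q * 2 ^ j ≤ N * |v - s i'| →
      |∫ ζ, κ.k j v z ζ * κ.FS u g (E i') m ζ| ≤
        Cb * (2 ^ j / (N * |v - s i'|)) ^ 2 * Av v 2 j (fun ζ => |κ.FS u g (E i') m ζ| +
          ∑ i ∈ Finset.range m,
            2 ^ i / 2 ^ j * Av (s i') Bb i ((E i' i).indicator fun z => |g z|) ζ) z)
    {GF Gg Gb : ℝ × ℝ → ℝ≥0∞} (hGF : Dom (s i') Ba (κ.FS u g (E i') n) GF)
    (hGg : Dom (s i') Ba ((Un (E i') n).indicator g) Gg)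
    (hGb : Dom (s i') Bb ((Un (E i') n).indicator g) Gb)
    {j k : ℕ} (hj : j < n) (hk : k ≤ j + 1)
    {z : ℝ × ℝ} (hz : z ∈ PSP u E i' i j) :
    ENNReal.ofReal |∫ ζ, κ.k j (u z) z ζ * κ.FS u g (E i') k ζ| ≤
      ENNReal.ofReal (Cb * (3 * Ca + 2)) * wt N u (s i') j (fun ζ => GF ζ + Gg ζ + Gb ζ) z := by
  have hN : 1 ≤ N := hκ.one_le
  have hsep : Q * 2 ^ j / N ≤ |u z - s i'| := by
    obtain ⟨hzE, j', hj', z', hz', ζ, h1, h2⟩ := hz
    exact hF.sep i i' hii j hj z hzE j' hj' z' hz' ζ h1 h2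
  have h2j : (0 : ℝ) < 2 ^ j := by positivity
  have hv : Q * (2 : ℝ) ^ j ≤ N * |u z - s i'| := by
    rw [div_le_iff₀ (by linarith)] at hsep
    calc Q * (2 : ℝ) ^ j ≤ |u z - s i'| * N := hsep
      _ = N * |u z - s i'| := mul_comm _ _
  have hpt : ∀ ζ, ENNReal.ofReal (|κ.FS u g (E i') k ζ| +
          ∑ i ∈ Finset.range k,
            2 ^ i / 2 ^ j * Av (s i') Bb i ((E i' i).indicator fun z => |g z|) ζ) ≤
      ENNReal.ofReal (3 * Ca + 2) * (GF ζ + Gg ζ + Gb ζ) := by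
    intro ζ
    refine le_trans ENNReal.ofReal_add_le ?_
    have h1 := ofReal_FS_le (n := n) (hF.meas i') hg hCa h4a hGF hGg (k := k) (by omega) ζ
    have h2 := sum_av_le (hF.meas i') hg (k := k) (l := j) (n := n) (by omega) hk hGb ζ
    have h3 : ENNReal.ofReal (3 * Ca + 2) = 3 * ENNReal.ofReal Ca + 2 := by
      rw [ENNReal.ofReal_add (by positivity) (by norm_num), ENNReal.ofReal_mul (by norm_num)]
      norm_num
    rw [h3]
    calc _ ≤ ENNReal.ofReal Ca * (GF ζ + 3 * Gg ζ) + 2 * Gb ζ := add_le_add h1 h2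
      _ ≤ ENNReal.ofReal Ca * (3 * GF ζ + 3 * Gg ζ + 3 * Gb ζ) +
            2 * (GF ζ + Gg ζ + Gb ζ) := by
          refine add_le_add (mul_le_mul_right ?_ _) (mul_le_mul_right ?_ _)
          · calc GF ζ + 3 * Gg ζ ≤ 3 * GF ζ + 3 * Gg ζ := by
                  refine add_le_add ?_ le_rfl
                  exact le_mul_of_one_le_left bot_le (by norm_num)
              _ ≤ 3 * GF ζ + 3 * Gg ζ + 3 * Gb ζ := le_self_add
          · exact le_add_self
      _ = (3 * ENNReal.ofReal Ca + 2) * (GF ζ + Gg ζ + Gb ζ) := by ring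
  refine le_trans (ENNReal.ofReal_le_ofReal (h4b j hj k hk (u z) z hv)) ?_
  rw [ENNReal.ofReal_mul (by positivity), ENNReal.ofReal_mul hCb.le]
  have h5 := ofReal_Av_le (u z) j (fun ζ => |κ.FS u g (E i') k ζ| +
          ∑ i ∈ Finset.range k,
            2 ^ i / 2 ^ j * Av (s i') Bb i ((E i' i).indicator fun z => |g z|) ζ) z
  have h6 : ∫⁻ ζ in Tu (u z) j z, ENNReal.ofReal (|κ.FS u g (E i') k ζ| +
          ∑ i ∈ Finset.range k,
            2 ^ i / 2 ^ j * Av (s i') Bb i ((E i' i).indicator fun z => |g z|) ζ) ≤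
      ENNReal.ofReal (3 * Ca + 2) * ∫⁻ ζ in Tu (u z) j z, (GF ζ + Gg ζ + Gb ζ) := by
    rw [← lintegral_const_mul' _ _ ENNReal.ofReal_ne_top]
    exact lintegral_mono hpt
  unfold wt
  rw [ENNReal.ofReal_mul hCb.le]
  calc _ ≤ ENNReal.ofReal Cb * ENNReal.ofReal ((2 ^ j / (N * |u z - s i'|)) ^ 2) *
        (ENNReal.ofReal (2 ^ j) * (ENNReal.ofReal (3 * Ca + 2) *
          ∫⁻ ζ in Tu (u z) j z, (GF ζ + Gg ζ + Gb ζ))) := by
        gcongr
        exact h5.trans (by gcongr)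
    _ = _ := by ring

/-- One pairing, integrated. -/
theorem pair_leP {κ : Ker M} (hκ : κ.Bd N C0) (hu : Field u) (hA : 1 ≤ A) 
    (hQ : 1 ≤ Q) (hF : ForestP N u τ A W Q n s c lev m E)
    {g : ℝ × ℝ → ℝ} (hg : Nice g) (hg1 : ∀ z, |g z| ≤ 1) {i i' : ι} (hii : i ≠ i')
    {Ca Ba Cb Bb : ℝ} (hCa : 0 < Ca) (hCb : 0 < Cb)
    (h4a : ∀ j < n, ∀ ζ : ℝ × ℝ,
      |κ.FS u g (E i') (j + 1) ζ| ≤ Ca * (AvL (s i') Ba j (fun z => |κ.FS u g (E i') n z|) ζ +
        Av (s i') Ba j ((Un (E i') n).indicator fun z => |g z|) ζ +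
        ∑ i ∈ Finset.range (j + 1),
          2 ^ i / 2 ^ j * Av (s i') Ba i ((E i' i).indicator fun z => |g z|) ζ))
    (h4b : ∀ j < n, ∀ m ≤ j + 1, ∀ (v : ℝ) (z : ℝ × ℝ), Q * 2 ^ j ≤ N * |v - s i'| →
      |∫ ζ, κ.k j v z ζ * κ.FS u g (E i') m ζ| ≤
        Cb * (2 ^ j / (N * |v - s i'|)) ^ 2 * Av v 2 j (fun ζ => |κ.FS u g (E i') m ζ| +
          ∑ i ∈ Finset.range m,
            2 ^ i / 2 ^ j * Av (s i') Bb i ((E i' i).indicator fun z => |g z|) ζ) z)
    {GF Gg Gb : ℝ × ℝ → ℝ≥0∞} (hGF : Dom (s i') Ba (κ.FS u g (E i') n) GF)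
    (hGg : Dom (s i') Ba ((Un (E i') n).indicator g) Gg)
    (hGb : Dom (s i') Bb ((Un (E i') n).indicator g) Gb)
    {j k : ℕ} (hj : j < n) (hk : k ≤ j + 1) :
    ENNReal.ofReal |∫ ζ, κ.S u j ((E i j).indicator g) ζ * κ.FS u g (E i') k ζ| ≤
      if lev i' ≤ j then ENNReal.ofReal (Cb * (3 * Ca + 2)) *
        ∫⁻ z in PSP u E i' i j, wt N u (s i') j (fun ζ => GF ζ + Gg ζ + Gb ζ) z
      else 0 := by
  have hFSn : Nice (κ.FS u g (E i') k) := κ.FS_nice hu hg (hF.meas i') k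
  split_ifs with hlev
  · rw [κ.integral_S_mul hu j (hg.indicator (hF.meas i j)) hFSn]
    set I : ℝ × ℝ → ℝ := fun z => ∫ ζ, κ.k j (u z) z ζ * κ.FS u g (E i') k ζ with hI
    have hIm : Measurable I := measurable_pair κ hu j hFSn.meas
    have h1 : ENNReal.ofReal |∫ z, (E i j).indicator g z * I z| ≤
        ∫⁻ z in E i j, ENNReal.ofReal |I z| := by
      rw [integral_indicator_mul (hF.meas i j)]
      calc ENNReal.ofReal |∫ z in E i j, g z * I z|
          ≤ ENNReal.ofReal (∫ z in E i j, |g z * I z|) :=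
            ENNReal.ofReal_le_ofReal (abs_integral_le_integral_abs)
        _ ≤ ∫⁻ z in E i j, ENNReal.ofReal |g z * I z| := ofReal_integral_le _
        _ ≤ ∫⁻ z in E i j, ENNReal.ofReal |I z| := by
            apply lintegral_mono
            intro z
            apply ENNReal.ofReal_le_ofReal
            rw [abs_mul]
            exact mul_le_of_le_one_left (abs_nonneg _) (hg1 z)
    refine h1.trans ?_
    -- restrict to the support of `I`
    set S : Set (ℝ × ℝ) := E i j ∩ {z | I z ≠ 0} with hS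
    have hSm : MeasurableSet S := (hF.meas i j).inter
      ((measurableSet_singleton (0 : ℝ)).compl.preimage hIm)
    have hSP : S ⊆ PSP u E i' i j := by
      rintro z ⟨hz, hne⟩
      by_contra hc
      exact hne (pair_eq_zeroP κ g i i' (by omega) hz hc)
    have h2 : ∫⁻ z in E i j, ENNReal.ofReal |I z| = ∫⁻ z in S, ENNReal.ofReal |I z| := by
      rw [← lintegral_indicator (hF.meas i j), ← lintegral_indicator hSm]
      congr 1
      ext z
      by_cases hz : z ∈ E i j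
      · by_cases h0 : I z = 0
        · have : z ∉ S := fun h => h.2 h0
          simp [hz, this, h0]
        · have : z ∈ S := ⟨hz, h0⟩
          simp [hz, this]
      · have : z ∉ S := fun h => hz h.1
        simp [hz, this]
    rw [h2]
    calc ∫⁻ z in S, ENNReal.ofReal |I z|
        ≤ ∫⁻ z in S, ENNReal.ofReal (Cb * (3 * Ca + 2)) *
            wt N u (s i') j (fun ζ => GF ζ + Gg ζ + Gb ζ) z := by
          apply setLIntegral_mono' hSm
          intro z hz
          exact pair_ptP hκ hA hQ hF hg hii hCa hCb h4a h4b hGF hGg hGb hj hk (hSP hz)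
      _ ≤ ∫⁻ z in PSP u E i' i j, ENNReal.ofReal (Cb * (3 * Ca + 2)) *
            wt N u (s i') j (fun ζ => GF ζ + Gg ζ + Gb ζ) z := lintegral_mono_set hSP
      _ = _ := lintegral_const_mul' _ _ ENNReal.ofReal_ne_top
  · have : ∀ ζ, κ.S u j ((E i j).indicator g) ζ * κ.FS u g (E i') k ζ = 0 := fun ζ => by
      rw [FS_eq_zeroP κ hF g i' (by omega) (by omega) ζ, mul_zero]
    simp [this]

end

/-- **T4 with `L` integrations by parts and the pair separation**, from the building blocks. -/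
theorem stN4P_of (L : ℕ) (hL : 2 ≤ L) (A C0 : ℝ) (hA : 1 ≤ A) (h2 : StN2 M A C0)
    (h4a : StN4a M A C0) (h4b : StN4bL M L A C0) (hD : ∀ B, 1 ≤ B → StDom B) :
    StN4P M L A C0 := by
  classical
  obtain ⟨C2, hC2, h2⟩ := h2
  obtain ⟨Ca, Ba, hCa, hBa, h4a⟩ := h4a
  obtain ⟨Cb, Bb, hCb, hBb, h4b⟩ := h4b
  obtain ⟨Da, hDa, hDa'⟩ := hD Ba hBa
  obtain ⟨Db, hDb, hDb'⟩ := hD Bb hBb
  set CI : ℝ := (A + 2) * ((H526.CFor 1 2 2).toReal + 1) with hCId
  have hCI : 0 < CI := by positivity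
  set KG : ℝ := 3 * (Da * (C2 * 2) + Da + Db) with hKG
  have hKG0 : 0 < KG := by positivity
  refine ⟨2 * (Cb * (3 * Ca + 2)) * CI * √KG, by positivity, ?_⟩
  intro N κ hκ τ u hu n ι _ s c lev m E W Q hW hQ hF g hg hg1
  have hW0 : 0 < W := by linarith
  have hQ0 : 0 < Q := by linarith
  have hN0 : 0 < N := lt_of_lt_of_le one_pos hκ.one_le
  set Cq : ℝ := Cb / Q ^ (L - 2) with hCq
  have hCq0 : 0 < Cq := by positivity
  set K1 : ℝ := Cq * (3 * Ca + 2) with hK1
  have hK10 : 0 < K1 := by positivity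
  have h4b' : ∀ i', ∀ j < n, ∀ m ≤ j + 1, ∀ (v : ℝ) (z : ℝ × ℝ), Q * 2 ^ j ≤ N * |v - s i'| →
      |∫ ζ, κ.k j v z ζ * κ.FS u g (E i') m ζ| ≤
        Cq * (2 ^ j / (N * |v - s i'|)) ^ 2 * Av v 2 j (fun ζ => |κ.FS u g (E i') m ζ| +
          ∑ i ∈ Finset.range m,
            2 ^ i / 2 ^ j * Av (s i') Bb i ((E i' i).indicator fun z => |g z|) ζ) z := by
    intro i' j hj m hm v z hv
    have h2j : (0 : ℝ) < 2 ^ j := by positivity
    have hv1 : (2 : ℝ) ^ j ≤ N * |v - s i'| := (le_mul_of_one_le_left h2j.le hQ).trans hv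
    have hpos : 0 < N * |v - s i'| := h2j.trans_le hv1
    refine (h4b N κ hκ u hu n (E i') (hF.meas i') (s i') (hF.slope i') g hg j hj m hm v z
      hv1).trans ?_
    refine mul_le_mul_of_nonneg_right ?_ (Av_nonneg (fun ζ => add_nonneg (abs_nonneg _)
      (Finset.sum_nonneg fun i _ => mul_nonneg (by positivity)
        (Av_nonneg (fun z => indicator_nonneg (fun _ _ => abs_nonneg _) z) ζ))) z)
    have hr : 2 ^ j / (N * |v - s i'|) ≤ 1 / Q := by
      rw [div_le_div_iff₀ hpos hQ0]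
      linarith
    have hLe : L = (L - 2) + 2 := by omega
    have hpw : (2 ^ j / (N * |v - s i'|)) ^ L ≤
        (1 / Q) ^ (L - 2) * (2 ^ j / (N * |v - s i'|)) ^ 2 := by
      conv_lhs => rw [hLe, pow_add]
      gcongr
    calc Cb * (2 ^ j / (N * |v - s i'|)) ^ L
        ≤ Cb * ((1 / Q) ^ (L - 2) * (2 ^ j / (N * |v - s i'|)) ^ 2) := by gcongr
      _ = Cq * (2 ^ j / (N * |v - s i'|)) ^ 2 := by
          rw [hCq, div_pow, one_pow]
          ring
  have hU : ∀ i, MeasurableSet (Un (E i) n) := fun i => measurableSet_Un (hF.meas i) n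
  -- pairing quantities
  set p : ι → ι → ℕ → ℕ → ℝ := fun i i' j k =>
    ∫ ζ, κ.S u j ((E i j).indicator g) ζ * κ.FS u g (E i') k ζ with hp
  set X : ι → ℝ := fun i => ∫ z in Un (E i) n, g z ^ 2 with hX
  have hX0 : ∀ i, 0 ≤ X i := fun i => integral_nonneg fun z => sq_nonneg _
  have hSn : ∀ i j, Nice (κ.S u j ((E i j).indicator g)) := fun i j =>
    κ.S_nice hu j (hg.indicator (hF.meas i j))
  have hFn : ∀ i k, Nice (κ.FS u g (E i) k) := fun i k => κ.FS_nice hu hg (hF.meas i) k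
  -- the bound for fixed `i'`
  have key : ∀ i', ∑ i ∈ Finset.univ.erase i', ∑ j ∈ Finset.range n,
      (|p i i' j (j + 1)| + |p i i' j j|) ≤
      2 * K1 * CI * √KG * W / √Q * (√((1 / 2 : ℝ) ^ lev i') * √(X i')) := by
    intro i'
    -- maximal functions
    obtain ⟨GF, hGF, hGF2⟩ := hDa' (s i') (κ.FS u g (E i') n) (hFn i' n)
    obtain ⟨Gg, hGg, hGg2⟩ := hDa' (s i') ((Un (E i') n).indicator g) (hg.indicator (hU i'))
    obtain ⟨Gb, hGb, hGb2⟩ := hDb' (s i') ((Un (E i') n).indicator g) (hg.indicator (hU i'))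
    set G : ℝ × ℝ → ℝ≥0∞ := fun ζ => GF ζ + Gg ζ + Gb ζ with hG
    have hGm : Measurable G := (hGF.meas.add hGg.meas).add hGb.meas
    have hT2 : ∫ ζ, (κ.FS u g (E i') n ζ) ^ 2 ≤ C2 * 2 * X i' := by
      apply h2 N κ hκ τ u hu n (E i') (hF.meas i') (s i') (hF.slope i') (hF.conv i') 2 (by norm_num)
        _ g hg
      intro j1 _ z1 _ i _
      apply volume_box_le τ i (q τ i z1.1) (s i') (z1.2 - s i' * z1.1)
      rintro z ⟨_, h1, h2, _⟩
      exact ⟨h1, h2⟩
    have hGG : ∫⁻ z, G z ^ 2 ≤ ENNReal.ofReal (KG * X i') := by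
      have h3 : ∀ z, G z ^ 2 ≤ 3 * (GF z ^ 2 + Gg z ^ 2 + Gb z ^ 2) := by
        intro z
        simp only [hG]
        generalize GF z = a
        generalize Gg z = b
        generalize Gb z = d
        have hsq : ∀ x y : ℝ≥0∞, 2 * (x * y) ≤ x ^ 2 + y ^ 2 := by
          intro x y
          rcases le_total x y with h | h
          · obtain ⟨e, rfl⟩ := exists_add_of_le h
            calc 2 * (x * (x + e)) = x ^ 2 + (x ^ 2 + 2 * (x * e)) := by ring
              _ ≤ x ^ 2 + ((x ^ 2 + 2 * (x * e)) + e ^ 2) := add_le_add le_rfl le_self_add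
              _ = x ^ 2 + (x + e) ^ 2 := by ring
          · obtain ⟨e, rfl⟩ := exists_add_of_le h
            calc 2 * ((y + e) * y) = (y ^ 2 + 2 * (y * e)) + y ^ 2 := by ring
              _ ≤ ((y ^ 2 + 2 * (y * e)) + e ^ 2) + y ^ 2 := add_le_add le_self_add le_rfl
              _ = (y + e) ^ 2 + y ^ 2 := by ring
        calc (a + b + d) ^ 2 = a ^ 2 + b ^ 2 + d ^ 2 + (2 * (a * b) + 2 * (a * d) + 2 * (b * d)) := by
              ring
          _ ≤ a ^ 2 + b ^ 2 + d ^ 2 + ((a ^ 2 + b ^ 2) + (a ^ 2 + d ^ 2) + (b ^ 2 + d ^ 2)) :=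
              add_le_add le_rfl (add_le_add (add_le_add (hsq _ _) (hsq _ _)) (hsq _ _))
          _ = 3 * (a ^ 2 + b ^ 2 + d ^ 2) := by ring
      have hF2 : ∫⁻ z, ENNReal.ofReal ((κ.FS u g (E i') n z) ^ 2) ≤
          ENNReal.ofReal (C2 * 2 * X i') := by
        rw [← ofReal_integral_eq_lintegral_ofReal (hFn i' n).sq.integrable
          (Eventually.of_forall fun z => sq_nonneg _)]
        exact ENNReal.ofReal_le_ofReal hT2
      have hg2 := lintegral_sq_indicator hg (hU i')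
      calc ∫⁻ z, G z ^ 2 ≤ ∫⁻ z, 3 * (GF z ^ 2 + Gg z ^ 2 + Gb z ^ 2) := lintegral_mono h3
        _ = 3 * ((∫⁻ z, GF z ^ 2) + (∫⁻ z, Gg z ^ 2) + (∫⁻ z, Gb z ^ 2)) := by
            have e1 : Measurable fun z => GF z ^ 2 := hGF.meas.pow_const 2
            have e2 : Measurable fun z => Gg z ^ 2 := hGg.meas.pow_const 2
            have e3 : Measurable fun z => GF z ^ 2 + Gg z ^ 2 := e1.add e2
            rw [lintegral_const_mul' _ _ (by norm_num), lintegral_add_left e3,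
              lintegral_add_left e1]
        _ ≤ 3 * (ENNReal.ofReal Da * ENNReal.ofReal (C2 * 2 * X i') +
              ENNReal.ofReal Da * ENNReal.ofReal (X i') +
              ENNReal.ofReal Db * ENNReal.ofReal (X i')) := by
            rw [hg2] at hGg2 hGb2
            refine mul_le_mul_right (add_le_add (add_le_add ?_ hGg2) hGb2) _
            exact hGF2.trans (mul_le_mul_right hF2 _)
        _ = ENNReal.ofReal (KG * X i') := by
            rw [← ENNReal.ofReal_mul hDa.le, ← ENNReal.ofReal_mul hDa.le,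
              ← ENNReal.ofReal_mul hDb.le, ← ENNReal.ofReal_add (by have := hX0 i'; positivity)
                (by have := hX0 i'; positivity), ← ENNReal.ofReal_add
                (by have := hX0 i'; positivity) (by have := hX0 i'; positivity),
              show (3 : ℝ≥0∞) = ENNReal.ofReal 3 by norm_num, ← ENNReal.ofReal_mul (by norm_num)]
            congr 1
            rw [hKG]
            ring
    have hGh : (∫⁻ z, G z ^ 2) ^ (1 / 2 : ℝ) ≤ ENNReal.ofReal (√KG * √(X i')) := by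
      calc (∫⁻ z, G z ^ 2) ^ (1 / 2 : ℝ) ≤ (ENNReal.ofReal (KG * X i')) ^ (1 / 2 : ℝ) := by
            gcongr
        _ = ENNReal.ofReal (√KG * √(X i')) := by
            rw [ENNReal.ofReal_rpow_of_nonneg (by have := hX0 i'; positivity) (by norm_num),
              ← Real.sqrt_eq_rpow, Real.sqrt_mul hKG0.le]
    have hIi : ∑ i ∈ Finset.univ.erase i',
        ∑ j ∈ (Finset.range n).filter (fun j => lev i' ≤ j),
        ∫⁻ z in PSP u E i' i j, wt N u (s i') j G z ≤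
        ENNReal.ofReal (CI * W / √Q * √((1 / 2 : ℝ) ^ lev i')) *
          (∫⁻ z, G z ^ 2) ^ (1 / 2 : ℝ) := by
      refine (forestP_enn hκ.one_le hA hW hu hF hQ i' hGm).trans ?_
      have h2 : ∫⁻ z, G z ^ (2 : ℝ) = ∫⁻ z, G z ^ 2 := by
        refine lintegral_congr fun z => ?_
        rw [ENNReal.rpow_ofNat]
      rw [h2]
      gcongr
      have h3 : H526.CFor 1 2 2 ≤ ENNReal.ofReal ((H526.CFor 1 2 2).toReal + 1) := by
        rw [← ENNReal.ofReal_toReal (H526.CFor_ne_top 1 2 2)]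
        refine ENNReal.ofReal_le_ofReal ?_
        rw [ENNReal.ofReal_toReal (H526.CFor_ne_top 1 2 2)]
        linarith
      calc H526.CFor (W + A + 1) 2 2 * ENNReal.ofReal (1 / √Q * √((1 / 2 : ℝ) ^ lev i'))
          ≤ (ENNReal.ofReal (W + A + 1) * ENNReal.ofReal ((H526.CFor 1 2 2).toReal + 1)) *
              ENNReal.ofReal (1 / √Q * √((1 / 2 : ℝ) ^ lev i')) := by
            gcongr
            exact (H526.CFor_le (by linarith)).trans (by gcongr)
        _ ≤ (ENNReal.ofReal ((A + 2) * W) * ENNReal.ofReal ((H526.CFor 1 2 2).toReal + 1)) *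
              ENNReal.ofReal (1 / √Q * √((1 / 2 : ℝ) ^ lev i')) := by
            gcongr
            nlinarith
        _ = ENNReal.ofReal (CI * W / √Q * √((1 / 2 : ℝ) ^ lev i')) := by
            rw [← ENNReal.ofReal_mul (by positivity), ← ENNReal.ofReal_mul (by positivity), hCId]
            congr 1
            ring
    -- each pairing
    have hpair : ∀ i ∈ Finset.univ.erase i', ∀ j ∈ Finset.range n, ∀ k ≤ j + 1,
        ENNReal.ofReal |p i i' j k| ≤ if lev i' ≤ j then ENNReal.ofReal K1 *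
          ∫⁻ z in PSP u E i' i j, wt N u (s i') j G z else 0 := by
      intro i hi j hj k hk
      exact pair_leP hκ hu hA hQ hF hg hg1 (Finset.ne_of_mem_erase hi) hCa hCq0
        (h4a N κ hκ u hu n (E i') (hF.meas i') (s i') (hF.slope i') g hg)
        (h4b' i')
        hGF hGg hGb (Finset.mem_range.1 hj) hk
    have h2K : ENNReal.ofReal (2 * K1) = 2 * ENNReal.ofReal K1 := by
      rw [ENNReal.ofReal_mul (p := 2) (q := K1) (by norm_num)]
      norm_num
    have hsum : ENNReal.ofReal (∑ i ∈ Finset.univ.erase i', ∑ j ∈ Finset.range n,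
        (|p i i' j (j + 1)| + |p i i' j j|)) ≤
        ENNReal.ofReal (2 * K1) * (ENNReal.ofReal (CI * W / √Q * √((1 / 2 : ℝ) ^ lev i')) *
          (∫⁻ z, G z ^ 2) ^ (1 / 2 : ℝ)) := by
      calc ENNReal.ofReal (∑ i ∈ Finset.univ.erase i', ∑ j ∈ Finset.range n,
            (|p i i' j (j + 1)| + |p i i' j j|))
          ≤ ∑ i ∈ Finset.univ.erase i', ∑ j ∈ Finset.range n, (2 * (if lev i' ≤ j then
              ENNReal.ofReal K1 *
              ∫⁻ z in PSP u E i' i j, wt N u (s i') j G z else 0)) := by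
            rw [ENNReal.ofReal_sum_of_nonneg fun i _ => Finset.sum_nonneg fun j _ => by positivity]
            refine Finset.sum_le_sum fun i hi => ?_
            rw [ENNReal.ofReal_sum_of_nonneg fun j _ => by positivity]
            refine Finset.sum_le_sum fun j hj => ?_
            rw [ENNReal.ofReal_add (abs_nonneg _) (abs_nonneg _), two_mul]
            exact add_le_add (hpair i hi j hj _ le_rfl) (hpair i hi j hj _ (Nat.le_succ _))
        _ = ENNReal.ofReal (2 * K1) * ∑ i ∈ Finset.univ.erase i',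
              ∑ j ∈ (Finset.range n).filter (fun j => lev i' ≤ j),
                ∫⁻ z in PSP u E i' i j, wt N u (s i') j G z := by
            rw [Finset.mul_sum]
            refine Finset.sum_congr rfl fun i _ => ?_
            rw [Finset.sum_filter, Finset.mul_sum]
            refine Finset.sum_congr rfl fun j _ => ?_
            rw [h2K]
            split_ifs
            · ring
            · simp
        _ ≤ _ := by
            gcongr
    have hfin : ENNReal.ofReal (2 * K1) * (ENNReal.ofReal (CI * W / √Q *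
        √((1 / 2 : ℝ) ^ lev i')) * (∫⁻ z, G z ^ 2) ^ (1 / 2 : ℝ)) ≤
        ENNReal.ofReal (2 * K1 * CI * √KG * W / √Q * (√((1 / 2 : ℝ) ^ lev i') * √(X i'))) := by
      calc _ ≤ ENNReal.ofReal (2 * K1) * (ENNReal.ofReal (CI * W / √Q *
            √((1 / 2 : ℝ) ^ lev i')) * ENNReal.ofReal (√KG * √(X i'))) := by gcongr
        _ = _ := by
            rw [← ENNReal.ofReal_mul (by positivity), ← ENNReal.ofReal_mul (by positivity)]
            congr 1
            ring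
    have hle := hsum.trans hfin
    rwa [ENNReal.ofReal_le_ofReal_iff (by positivity)] at hle
  -- expansion of the square
  have hexp : ∀ ζ, (∑ i, κ.FS u g (E i) n ζ) ^ 2 = (∑ i, (κ.FS u g (E i) n ζ) ^ 2) +
      ∑ i', ∑ i ∈ Finset.univ.erase i', κ.FS u g (E i) n ζ * κ.FS u g (E i') n ζ := by
    intro ζ
    rw [pow_two, Finset.sum_mul_sum, Finset.sum_comm, ← Finset.sum_add_distrib]
    refine Finset.sum_congr rfl fun i' _ => ?_
    rw [← Finset.add_sum_erase _ _ (Finset.mem_univ i'), pow_two]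
  have hmul : ∀ i i', ∫ ζ, κ.FS u g (E i) n ζ * κ.FS u g (E i') n ζ =
      (∑ j ∈ Finset.range n, p i i' j (j + 1)) + ∑ j ∈ Finset.range n, p i' i j j := by
    intro i i'
    have h1 : ∀ ζ, κ.FS u g (E i) n ζ * κ.FS u g (E i') n ζ =
        ∑ j ∈ Finset.range n, κ.S u j ((E i j).indicator g) ζ * κ.FS u g (E i') (j + 1) ζ +
        ∑ j ∈ Finset.range n, κ.S u j ((E i' j).indicator g) ζ * κ.FS u g (E i) j ζ := by
      intro ζ
      unfold Ker.FS
      exact abel_mul _ _ n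
    simp_rw [h1]
    rw [integral_add, integral_finsetSum, integral_finsetSum]
    · intro j _
      exact ((hSn i' j).mul (hFn i j)).integrable
    · intro j _
      exact ((hSn i j).mul (hFn i' (j + 1))).integrable
    · exact (Nice.sum _ fun j _ => (hSn i j).mul (hFn i' (j + 1))).integrable
    · exact (Nice.sum _ fun j _ => (hSn i' j).mul (hFn i j)).integrable
  have hint : ∫ ζ, (∑ i, κ.FS u g (E i) n ζ) ^ 2 = (∑ i, ∫ ζ, (κ.FS u g (E i) n ζ) ^ 2) +
      ∑ i', ∑ i ∈ Finset.univ.erase i', ((∑ j ∈ Finset.range n, p i i' j (j + 1)) +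
        ∑ j ∈ Finset.range n, p i' i j j) := by
    simp_rw [hexp]
    rw [integral_add, integral_finsetSum, integral_finsetSum]
    · congr 1
      refine Finset.sum_congr rfl fun i' _ => ?_
      rw [integral_finsetSum]
      · exact Finset.sum_congr rfl fun i _ => hmul i i'
      · intro i _
        exact ((hFn i n).mul (hFn i' n)).integrable
    · intro i' _
      exact (Nice.sum _ fun i _ => (hFn i n).mul (hFn i' n)).integrable
    · intro i _
      exact (hFn i n).sq.integrable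
    · exact (Nice.sum _ fun i _ => (hFn i n).sq).integrable
    · exact (Nice.sum _ fun i' _ => Nice.sum _ fun i _ => (hFn i n).mul (hFn i' n)).integrable
  have hswap : ∑ i', ∑ i ∈ Finset.univ.erase i', ∑ j ∈ Finset.range n, p i' i j j =
      ∑ i', ∑ i ∈ Finset.univ.erase i', ∑ j ∈ Finset.range n, p i i' j j := by
    simp_rw [sum_erase_eq]
    rw [Finset.sum_comm]
    refine Finset.sum_congr rfl fun i _ => Finset.sum_congr rfl fun i' _ => ?_
    by_cases h : i = i'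
    · simp [h]
    · simp [h, Ne.symm h]
  have hbound : ∑ i', ∑ i ∈ Finset.univ.erase i', ((∑ j ∈ Finset.range n, p i i' j (j + 1)) +
        ∑ j ∈ Finset.range n, p i' i j j) ≤
      ∑ i', 2 * K1 * CI * √KG * W / √Q * (√((1 / 2 : ℝ) ^ lev i') * √(X i')) := by
    simp_rw [Finset.sum_add_distrib]
    rw [hswap, ← Finset.sum_add_distrib]
    refine Finset.sum_le_sum fun i' _ => le_trans ?_ (key i')
    rw [← Finset.sum_add_distrib]
    refine Finset.sum_le_sum fun i _ => ?_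
    rw [← Finset.sum_add_distrib]
    exact Finset.sum_le_sum fun j _ => add_le_add (le_abs_self _) (le_abs_self _)
  rw [hint]
  refine add_le_add le_rfl (hbound.trans ?_)
  have hfac : 2 * (Cb * (3 * Ca + 2)) * CI * √KG * W / (√Q * Q ^ (L - 2)) =
      2 * K1 * CI * √KG * W / √Q := by
    rw [hK1, hCq]
    have : Q ^ (L - 2) ≠ 0 := by positivity
    have : √Q ≠ 0 := by positivity
    field_simp
  rw [hfac, ← Finset.mul_sum, mul_assoc (2 * K1 * CI * √KG * W / √Q)]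
  refine mul_le_mul_of_nonneg_left ?_ (by positivity)
  exact Real.sum_sqrt_mul_sqrt_le _ (fun i => by positivity) hX0

/-- **(T4)** with the pair separation, unconditional. -/
theorem stN4P (M L : ℕ) (A C0 : ℝ) (hL : 2 ≤ L) (hM : L ≤ M) (hA : 1 ≤ A) : StN4P M L A C0 :=
  stN4P_of L hL A C0 hA (tN2 M A C0 hA) (H964.stN4a M A C0 hA) (stN4bL M L A C0 hM hA)
    (fun B hB => H526.stDom B hB)

end Vale.Agent.P112.H964
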